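import Crest.Agent.H0021.Count

/-! Choice of the parameters. -/

open Finset Filter Topology

namespace Crest.Agent.H0021

lemma ev_pow_le_exp (A : ℝ) (k : ℕ) {b : ℝ} (hb : 0 < b) :
    ∀ᶠ u : ℝ in atTop, A * u ^ k ≤ Real.exp (b * u) := by
  have h := (isLittleO_pow_exp_pos_mul_atTop k hb).const_mul_left A
  filter_upwards [h.bound one_pos] with u hu
  rw [one_mul, Real.norm_of_nonneg (Real.exp_pos _).le] at hu
  exact (le_abs_self _).trans hu

lemma ev_small (A B : ℝ) {η : ℝ} (hη : 0 < η) :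
    ∀ᶠ y : ℕ in atTop, Real.exp (A * (1 / y + B / Real.log y)) - 1 ≤ η := by
  have h1 : Tendsto (fun y : ℕ => (1 : ℝ) / y) atTop (𝓝 0) := tendsto_one_div_atTop_nhds_zero_nat
  have h2 : Tendsto (fun y : ℕ => B / Real.log y) atTop (𝓝 0) :=
    (Real.tendsto_log_atTop.comp tendsto_natCast_atTop_atTop).const_div_atTop B
  have h3 := ((Real.continuous_exp.tendsto _).comp ((h1.add h2).const_mul A)).sub_const 1
  simp only [add_zero, mul_zero, Real.exp_zero, sub_self] at h3
  exact h3.eventually (ge_mem_nhds hη)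

open Classical in
theorem few_bad {C ε : ℝ} (hC : 1 ≤ C) (hε : 0 < ε) :
    ∃ T L : ℕ, 0 < T ∧ 0 < L ∧ ∀ᶠ X : ℕ in atTop,
      (((range X).filter fun n : ℕ => n.Prime ∧ BadP T ⌈C * Real.log X⌉₊ L n).card : ℝ)
        ≤ ε * X / Real.log X := by
  obtain ⟨I, T, L, η, hI, hT, hL, hη, H⟩ :=
    count_bad (c := 800 * C) (ε := ε / 400) (by positivity) (by positivity)
  refine ⟨T, L, hT, hL, ?_⟩
  have hlog : Tendsto (fun X : ℕ => Real.log X) atTop atTop :=
    Real.tendsto_log_atTop.comp tendsto_natCast_atTop_atTop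
  obtain ⟨y₀, hy₀⟩ := eventually_atTop.1 ((eventually_ge_atTop 3).and
    (ev_small (Cb I) ((6 * 2 ^ I : ℕ) ^ 2 * (Real.log T + 2 * Real.log 4)) (half_pos hη)))
  have hb : (0 : ℝ) < 1 / (200 * 2 ^ I) := by positivity
  filter_upwards [eventually_gt_atTop 0, hlog.eventually (eventually_ge_atTop 200),
    hlog.eventually (eventually_ge_atTop (4 ^ y₀)), hlog.eventually (ev_pow_le_exp (10 ^ 8) 0 hb),
    hlog.eventually (ev_pow_le_exp (2 * C) 1 hb),
    hlog.eventually (ev_pow_le_exp (4 * C / η) (6 * 2 ^ I + 1) (by norm_num : (0 : ℝ) < 0.52)),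
    hlog.eventually (ev_pow_le_exp (4 / ε) 1 (by norm_num : (0 : ℝ) < 0.995))]
    with X hX a1 a2 a3 a4 a5 a6
  have hX' : (0 : ℝ) < X := by positivity
  set u := Real.log X with hu
  have eX : (X : ℝ) = Real.exp u := (Real.exp_log hX').symm
  set h := ⌈C * u⌉₊ with hh
  have h1 : C * u ≤ h := Nat.le_ceil _
  have h0 : u ≤ C * u := le_mul_of_one_le_left (by linarith) hC
  have h2 : (h : ℝ) ≤ 2 * C * u := by
    have := Nat.ceil_lt_add_one (by positivity : 0 ≤ C * u)
    linarith
  have h3 : 4 ^ y₀ ≤ h := by exact_mod_cast a2.trans (h0.trans h1)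
  have h4 : h ≠ 0 := by
    have : 0 < 4 ^ y₀ := by positivity
    omega
  set y := Nat.log 4 h with hy
  have y1 : y₀ ≤ y := Nat.le_log_of_pow_le (by norm_num) h3
  have y2 : 4 ^ y ≤ h := Nat.pow_log_le_self 4 h4
  have y3 : h < 4 ^ (y + 1) := Nat.lt_pow_succ_log_self (by norm_num) h
  obtain ⟨y4, y5⟩ := hy₀ y y1
  have y6 : (y : ℝ) ≤ h := by exact_mod_cast Nat.log_le_self 4 h
  have y7 : (3 : ℝ) ≤ y := by exact_mod_cast y4
  have ez : zeta (u / 200) I = Real.exp (1 / (200 * 2 ^ I) * u) := by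
    unfold zeta; congr 1; field_simp
  have p : Par y I (u / 200) := ⟨hI, y4, by linarith, by rw [ez]; simpa using a3,
    by rw [ez]; rw [pow_one] at a4; linarith⟩
  have hW : primorial y ≤ h := (primorial_le_four_pow y).trans y2
  have key := H y h X (u / 200) p hX hW (by linarith) ?_ ?_
  · have s1 : ((range X).filter fun n : ℕ => n.Prime ∧ BadP T h L n) ⊆
        ((range X).filter fun n : ℕ => n.Prime ∧ Real.exp (u / 200) < n ∧ BadP T h L n)
          ∪ range (⌊Real.exp (u / 200)⌋₊ + 1) := by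
      intro n hn
      obtain ⟨n1, n2, n3⟩ := mem_filter.1 hn
      by_cases h' : Real.exp (u / 200) < n
      · exact mem_union_left _ (mem_filter.2 ⟨n1, n2, h', n3⟩)
      · exact mem_union_right _ (mem_range.2 (Nat.lt_succ_of_le (Nat.le_floor (not_lt.1 h'))))
    have s2 := (card_le_card s1).trans (card_union_le _ _)
    rw [card_range] at s2
    have s3 : (⌊Real.exp (u / 200)⌋₊ : ℝ) ≤ Real.exp (u / 200) := Nat.floor_le (Real.exp_pos _).le
    have s4 : 1 ≤ Real.exp (u / 200) := Real.one_le_exp (by linarith)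
    have s5 : 2 * Real.exp (u / 200) ≤ ε / 2 * X / u := by
      rw [le_div_iff₀ (by linarith), eX, show Real.exp u = Real.exp (u / 200) * Real.exp (0.995 * u) by
        rw [← Real.exp_add]; congr 1; ring]
      calc _ = ε / 2 * (Real.exp (u / 200) * (4 / ε * u ^ 1)) := by field_simp; ring
        _ ≤ _ := by gcongr
    have s6 : ε / 400 * X / (u / 200) = ε / 2 * X / u := by field_simp; ring
    have s7 : ε * X / u = ε / 2 * X / u + ε / 2 * X / u := by ring
    have s8 := (Nat.cast_le (α := ℝ)).2 s2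
    push_cast at s8
    linarith
  · refine le_trans ?_ y5
    have : 0 ≤ Cb I := by unfold Cb; positivity
    have l1 : 0 < Real.log y := Real.log_pos (by linarith)
    have l2 : 0 < Real.log 4 := Real.log_pos (by norm_num)
    have l3 : 0 ≤ Real.log T := Real.log_natCast_nonneg _
    have l4 : Real.log (T * h : ℕ) ≤ (Real.log T + 2 * Real.log 4) * y := by
      have : (h : ℝ) ≤ 4 ^ (y + 1) := by exact_mod_cast y3.le
      have l5 := Real.log_le_log (by positivity) this
      rw [Real.log_pow] at l5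
      rw [Nat.cast_mul, Real.log_mul (by positivity) (by positivity)]
      push_cast at l5
      nlinarith
    refine sub_le_sub_right (Real.exp_le_exp.2 (mul_le_mul_of_nonneg_left
      (add_le_add le_rfl ?_) this)) _
    calc _ ≤ ((6 * 2 ^ I : ℕ) : ℝ) ^ 2 * ((Real.log T + 2 * Real.log 4) * y / Real.log y) / y := by
          gcongr
      _ = _ := by field_simp
  · have w1 : (primorial y : ℝ) ≤ 2 * C * u := le_trans (by exact_mod_cast hW) h2
    calc _ ≤ 2 * C * u / X * Real.exp (96 * (u / 200)) * u ^ (6 * 2 ^ I) := by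
          gcongr; linarith
      _ = η / 2 * (4 * C / η * u ^ (6 * 2 ^ I + 1)) / Real.exp (0.52 * u) := by
          rw [eX, show Real.exp u = Real.exp (96 * (u / 200)) * Real.exp (0.52 * u) by
            rw [← Real.exp_add]; congr 1; ring]
          field_simp; ring
      _ ≤ _ := by
          rw [div_le_iff₀ (Real.exp_pos _)]; gcongr

end Crest.Agent.H0021
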