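import Mathlib

/-! Averages over residues, Chinese remainder factorisation, and small representations by
residue classes. -/

open Finset

namespace Crest.Agent.H0021

/-- average of `F` over `0 ≤ n < P` -/
noncomputable def avg (P : ℕ) (F : ℕ → ℝ) : ℝ := (∑ n ∈ range P, F n) / P

lemma avg_congr {P : ℕ} {F G : ℕ → ℝ} (h : ∀ n, F n = G n) : avg P F = avg P G := by
  unfold avg; simp [h]

lemma avg_add (P : ℕ) (F G : ℕ → ℝ) : avg P (fun n => F n + G n) = avg P F + avg P G := by
  unfold avg; rw [sum_add_distrib, add_div]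

lemma avg_sub (P : ℕ) (F G : ℕ → ℝ) : avg P (fun n => F n - G n) = avg P F - avg P G := by
  unfold avg; rw [sum_sub_distrib, sub_div]

lemma avg_mul_left (P : ℕ) (c : ℝ) (F : ℕ → ℝ) : avg P (fun n => c * F n) = c * avg P F := by
  unfold avg; rw [← mul_sum, mul_div_assoc]

lemma avg_mul_right (P : ℕ) (c : ℝ) (F : ℕ → ℝ) : avg P (fun n => F n * c) = avg P F * c := by
  unfold avg; rw [← sum_mul]; ring

lemma avg_sum {ι : Type*} (P : ℕ) (s : Finset ι) (F : ι → ℕ → ℝ) :
    avg P (fun n => ∑ i ∈ s, F i n) = ∑ i ∈ s, avg P (F i) := by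
  unfold avg; rw [sum_comm, sum_div]

lemma avg_const {P : ℕ} (hP : 0 < P) (c : ℝ) : avg P (fun _ => c) = c := by
  unfold avg
  have : (P : ℝ) ≠ 0 := by positivity
  simp; field_simp

lemma avg_mono {P : ℕ} {F G : ℕ → ℝ} (h : ∀ n, F n ≤ G n) : avg P F ≤ avg P G := by
  unfold avg; gcongr; exact h _

lemma avg_nonneg {P : ℕ} {F : ℕ → ℝ} (h : ∀ n, 0 ≤ F n) : 0 ≤ avg P F := by
  unfold avg; exact div_nonneg (sum_nonneg fun n _ => h n) (by positivity)

lemma abs_avg_le {P : ℕ} {F G : ℕ → ℝ} (h : ∀ n, |F n| ≤ G n) : |avg P F| ≤ avg P G := by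
  unfold avg
  rw [abs_div, Nat.abs_cast]
  gcongr
  exact (abs_sum_le_sum_abs _ _).trans (sum_le_sum fun n _ => h n)

lemma avg_one (F : ℕ → ℝ) : avg 1 F = F 0 := by simp [avg]

/-- periodicity modulo `P` -/
def Per (P : ℕ) (F : ℕ → ℝ) : Prop := ∀ n m, n ≡ m [MOD P] → F n = F m

lemma Per.of_dvd {P Q : ℕ} {F : ℕ → ℝ} (h : Per P F) (hd : P ∣ Q) : Per Q F :=
  fun n m hnm => h n m (hnm.of_dvd hd)

lemma sum_crt {a b : ℕ} (hab : Nat.Coprime a b) (ha : 0 < a) (hb : 0 < b) (F : ℕ → ℕ → ℝ)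
    (h1 : ∀ m, Per a (fun n => F n m)) (h2 : ∀ n, Per b (F n)) :
    ∑ n ∈ range (a * b), F n n = ∑ n ∈ range a, ∑ m ∈ range b, F n m := by
  rw [← sum_product']
  symm
  refine sum_bij' (fun x _ => (Nat.chineseRemainder hab x.1 x.2 : ℕ))
    (fun n _ => (n % a, n % b)) ?_ ?_ ?_ ?_ ?_
  · intro x _
    exact mem_range.2 (Nat.chineseRemainder_lt_mul hab _ _ ha.ne' hb.ne')
  · intro n _
    simp only [mem_product, mem_range]
    exact ⟨Nat.mod_lt _ ha, Nat.mod_lt _ hb⟩
  · intro x hx
    simp only [mem_product, mem_range] at hx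
    have h := (Nat.chineseRemainder hab x.1 x.2).2
    ext
    · simp only; rw [h.1, Nat.mod_eq_of_lt hx.1]
    · simp only; rw [h.2, Nat.mod_eq_of_lt hx.2]
  · intro n hn
    have h := (Nat.chineseRemainder hab (n % a) (n % b)).2
    have h3 : (Nat.chineseRemainder hab (n % a) (n % b) : ℕ) ≡ n [MOD a * b] :=
      (Nat.modEq_and_modEq_iff_modEq_mul hab).1
        ⟨h.1.trans (Nat.mod_modEq _ _), h.2.trans (Nat.mod_modEq _ _)⟩
    have h4 := Nat.chineseRemainder_lt_mul hab (n % a) (n % b) ha.ne' hb.ne'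
    exact Nat.ModEq.eq_of_lt_of_lt h3 h4 (mem_range.1 hn)
  · intro x _
    have h := (Nat.chineseRemainder hab x.1 x.2).2
    exact ((h1 _ _ _ h.1).trans (h2 _ _ _ h.2)).symm

lemma avg_crt {a b : ℕ} (hab : Nat.Coprime a b) (ha : 0 < a) (hb : 0 < b) (F : ℕ → ℕ → ℝ)
    (h1 : ∀ m, Per a (fun n => F n m)) (h2 : ∀ n, Per b (F n)) :
    avg (a * b) (fun n => F n n) = avg a (fun n => avg b (F n)) := by
  unfold avg
  rw [sum_crt hab ha hb F h1 h2, ← sum_div, div_div, Nat.cast_mul, mul_comm (a : ℝ)]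

lemma avg_mul_coprime {a b : ℕ} (hab : Nat.Coprime a b) (ha : 0 < a) (hb : 0 < b)
    {F G : ℕ → ℝ} (h1 : Per a F) (h2 : Per b G) :
    avg (a * b) (fun n => F n * G n) = avg a F * avg b G := by
  rw [avg_crt hab ha hb (fun n m => F n * G m)]
  · simp only [avg_mul_left]; rw [avg_mul_right]
  · intro m n n' h; simp only [h1 n n' h]
  · intro n m m' h; simp only [h2 m m' h]

lemma per_prod {ι : Type*} (s : Finset ι) (P : ι → ℕ) (F : ι → ℕ → ℝ)
    (h : ∀ i ∈ s, Per (P i) (F i)) : Per (∏ i ∈ s, P i) (fun n => ∏ i ∈ s, F i n) := by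
  intro n m hnm
  exact prod_congr rfl fun i hi => h i hi n m (hnm.of_dvd (dvd_prod_of_mem _ hi))

lemma avg_prod_coprime {ι : Type*} [DecidableEq ι] (s : Finset ι) (P : ι → ℕ) (F : ι → ℕ → ℝ)
    (hP : ∀ i ∈ s, 0 < P i) (hc : ∀ i ∈ s, ∀ j ∈ s, i ≠ j → Nat.Coprime (P i) (P j))
    (h : ∀ i ∈ s, Per (P i) (F i)) :
    avg (∏ i ∈ s, P i) (fun n => ∏ i ∈ s, F i n) = ∏ i ∈ s, avg (P i) (F i) := by
  induction s using Finset.induction_on with
  | empty => simp [avg]
  | insert a s ha ih =>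
    simp only [prod_insert ha]
    rw [avg_mul_coprime, ih]
    · exact fun i hi => hP i (mem_insert_of_mem hi)
    · exact fun i hi j hj => hc i (mem_insert_of_mem hi) j (mem_insert_of_mem hj)
    · exact fun i hi => h i (mem_insert_of_mem hi)
    · exact Nat.Coprime.prod_right fun i hi =>
        hc a (mem_insert_self _ _) i (mem_insert_of_mem hi) (by rintro rfl; exact ha hi)
    · exact hP a (mem_insert_self _ _)
    · exact prod_pos fun i hi => hP i (mem_insert_of_mem hi)
    · exact h a (mem_insert_self _ _)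
    · exact per_prod s P F fun i hi => h i (mem_insert_of_mem hi)

/-- indicator of `d ∣ n + a` -/
noncomputable def ind (d a n : ℕ) : ℝ := if d ∣ n + a then 1 else 0

lemma sum_ind_block {d : ℕ} (hd : 0 < d) (a k : ℕ) :
    ∑ n ∈ range d, ind d a (k + n) = 1 := by
  induction k with
  | zero =>
    simp only [zero_add]
    induction a with
    | zero =>
      rw [sum_eq_single 0]
      · simp [ind]
      · intro n hn h0
        simp only [ind, add_zero]
        rw [if_neg]
        exact Nat.not_dvd_of_pos_of_lt (Nat.pos_of_ne_zero h0) (mem_range.1 hn)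
      · intro h; exact absurd (mem_range.2 hd) h
    | succ a ih =>
      have h1 := sum_range_succ (fun n => ind d a n) d
      have h2 := sum_range_succ' (fun n => ind d a n) d
      have h3 : ind d a d = ind d a 0 := by simp [ind]
      have h4 : ∀ n, ind d (a + 1) n = ind d a (n + 1) := by
        intro n; simp only [ind]; rw [show n + (a + 1) = n + 1 + a by ring]
      simp only [h4]; linarith
  | succ k ih =>
    have h1 := sum_range_succ (fun n => ind d a (k + n)) d
    have h2 := sum_range_succ' (fun n => ind d a (k + n)) d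
    have h3 : ind d a (k + d) = ind d a (k + 0) := by
      simp only [ind, add_zero]
      rw [show k + d + a = d + (k + a) by ring]
      simp
    have h4 : ∀ n, k + 1 + n = k + (n + 1) := by intro n; ring
    simp only [h4]; linarith

lemma sum_ind_mul {d : ℕ} (hd : 0 < d) (a q : ℕ) :
    ∑ n ∈ range (d * q), ind d a n = q := by
  induction q with
  | zero => simp
  | succ q ih => rw [mul_add, mul_one, sum_range_add, ih, sum_ind_block hd]; simp

lemma ind_nonneg (d a n : ℕ) : 0 ≤ ind d a n := by unfold ind; split_ifs <;> norm_num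

lemma ind_le_one (d a n : ℕ) : ind d a n ≤ 1 := by unfold ind; split_ifs <;> norm_num

lemma abs_sum_ind_sub_le {d : ℕ} (hd : 0 < d) (a X : ℕ) :
    |∑ n ∈ range X, ind d a n - X / d| ≤ 1 := by
  have hX : X = d * (X / d) + X % d := (Nat.div_add_mod X d).symm
  have hr : X % d < d := Nat.mod_lt _ hd
  have hd' : (0 : ℝ) < d := by positivity
  have h1 : ∑ n ∈ range X, ind d a n
      = (X / d : ℕ) + ∑ n ∈ range (X % d), ind d a (d * (X / d) + n) := by
    conv_lhs => rw [hX]
    rw [sum_range_add, sum_ind_mul hd]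
  have h2 : ∑ n ∈ range (X % d), ind d a (d * (X / d) + n) ≤ 1 := by
    rw [← sum_ind_block hd a (d * (X / d))]
    exact sum_le_sum_of_subset_of_nonneg (range_subset_range.2 hr.le) fun _ _ _ => ind_nonneg _ _ _
  have h3 : 0 ≤ ∑ n ∈ range (X % d), ind d a (d * (X / d) + n) :=
    sum_nonneg fun _ _ => ind_nonneg _ _ _
  have h4 : (X : ℝ) / d = (X / d : ℕ) + (X % d : ℕ) / d := by
    have : (X : ℝ) = d * (X / d : ℕ) + (X % d : ℕ) := by exact_mod_cast hX
    rw [this]; field_simp
  have h5 : ((X % d : ℕ) : ℝ) / d ≤ 1 := by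
    rw [div_le_one hd']; exact_mod_cast hr.le
  have h6 : 0 ≤ ((X % d : ℕ) : ℝ) / d := by positivity
  rw [h1, h4, abs_le]; constructor <;> linarith

lemma avg_ind {d P : ℕ} (hP : 0 < P) (hd : d ∣ P) (a : ℕ) : avg P (ind d a) = 1 / d := by
  obtain ⟨q, rfl⟩ := hd
  have hd : 0 < d := Nat.pos_of_mul_pos_right hP
  have hq : 0 < q := Nat.pos_of_mul_pos_left hP
  unfold avg
  rw [sum_ind_mul hd]
  have : (q : ℝ) ≠ 0 := by positivity
  push_cast; field_simp

lemma ind_mul_ind {d e : ℕ} (hd : 0 < d) (he : 0 < e) (a b : ℕ) :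
    (∀ n, ind d a n * ind e b n = 0) ∨ ∃ c, ∀ n, ind d a n * ind e b n = ind (Nat.lcm d e) c n := by
  by_cases h : ∃ n₀, d ∣ n₀ + a ∧ e ∣ n₀ + b
  · right
    obtain ⟨n₀, h1, h2⟩ := h
    have hL : 0 < Nat.lcm d e := Nat.lcm_pos hd he
    obtain ⟨L, hL'⟩ : ∃ L, Nat.lcm d e = L + 1 := ⟨Nat.lcm d e - 1, by omega⟩
    refine ⟨L * n₀, fun n => ?_⟩
    have key : ∀ f c : ℕ, f ∣ Nat.lcm d e → f ∣ n₀ + c → (f ∣ n + c ↔ f ∣ n + L * n₀) := by
      intro f c hf hc
      have e1 : n + c + (L + 1) * n₀ = n + L * n₀ + (n₀ + c) := by ring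
      have hf' : f ∣ (L + 1) * n₀ := Dvd.dvd.mul_right (hL' ▸ hf) _
      rw [← Nat.dvd_add_left hf', e1, Nat.dvd_add_left hc]
    have k1 := key d a (Nat.dvd_lcm_left _ _) h1
    have k2 := key e b (Nat.dvd_lcm_right _ _) h2
    simp only [ind, k1, k2, Nat.lcm_dvd_iff]
    split_ifs <;> simp_all
  · left
    intro n
    simp only [ind]
    split_ifs with h1 h2
    · exact absurd ⟨n, h1, h2⟩ h
    all_goals simp

/-- `F` is a combination of indicators of classes with moduli dividing `P`, with coefficients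
of total size at most `N` -/
inductive Rep (P : ℕ) : (ℕ → ℝ) → ℝ → Prop
  | cls (d a : ℕ) (hd : d ∣ P) (c : ℝ) : Rep P (fun n => c * ind d a n) |c|
  | add {F G : ℕ → ℝ} {N M : ℝ} : Rep P F N → Rep P G M → Rep P (fun n => F n + G n) (N + M)
  | mono {F : ℕ → ℝ} {N M : ℝ} : Rep P F N → N ≤ M → Rep P F M

lemma Rep.nonneg {P : ℕ} {F : ℕ → ℝ} {N : ℝ} (h : Rep P F N) : 0 ≤ N := by
  induction h with
  | cls => exact abs_nonneg _
  | add _ _ h1 h2 => linarith
  | mono _ h1 h2 => linarith

lemma Rep.congr {P : ℕ} {F G : ℕ → ℝ} {N : ℝ} (h : Rep P F N) (e : ∀ n, F n = G n) :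
    Rep P G N := by
  have : F = G := funext e
  exact this ▸ h

lemma Rep.const (P : ℕ) (c : ℝ) : Rep P (fun _ => c) |c| :=
  (Rep.cls 1 0 (one_dvd P) c).congr fun n => by simp [ind]

lemma Rep.mul {P : ℕ} (hP : 0 < P) {F G : ℕ → ℝ} {N M : ℝ} (h1 : Rep P F N) (h2 : Rep P G M) :
    Rep P (fun n => F n * G n) (N * M) := by
  induction h1 with
  | cls d a hd c =>
    induction h2 with
    | cls e b he c' =>
      rcases ind_mul_ind (Nat.pos_of_dvd_of_pos hd hP) (Nat.pos_of_dvd_of_pos he hP) a b with h | ⟨f, h⟩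
      · refine ((Rep.const P 0).congr fun n => ?_).mono (by simp; positivity)
        calc (0 : ℝ) = c * c' * (ind d a n * ind e b n) := by rw [h n]; ring
          _ = _ := by ring
      · refine ((Rep.cls _ f (Nat.lcm_dvd hd he) (c * c')).congr fun n => ?_).mono (by rw [abs_mul])
        rw [← h n]; ring
    | add _ _ i1 i2 => exact ((i1.add i2).congr fun n => by ring).mono (by rw [mul_add])
    | mono _ hle i1 => exact i1.mono (by gcongr)
  | add _ _ i1 i2 => exact ((i1.add i2).congr fun n => by ring).mono (by rw [add_mul])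
  | mono _ hle i1 => exact i1.mono (by have := h2.nonneg; gcongr)

lemma Rep.sum {P : ℕ} {ι : Type*} (s : Finset ι) {F : ι → ℕ → ℝ} {N : ι → ℝ}
    (h : ∀ i ∈ s, Rep P (F i) (N i)) : Rep P (fun n => ∑ i ∈ s, F i n) (∑ i ∈ s, N i) := by
  classical
  induction s using Finset.induction_on with
  | empty => simpa using Rep.const P 0
  | insert a s ha ih =>
    simp only [sum_insert ha]
    exact (h a (mem_insert_self _ _)).add (ih fun i hi => h i (mem_insert_of_mem hi))

lemma Rep.prod {P : ℕ} (hP : 0 < P) {ι : Type*} (s : Finset ι) {F : ι → ℕ → ℝ} {N : ι → ℝ}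
    (h : ∀ i ∈ s, Rep P (F i) (N i)) : Rep P (fun n => ∏ i ∈ s, F i n) (∏ i ∈ s, N i) := by
  classical
  induction s using Finset.induction_on with
  | empty => simpa using Rep.const P 1
  | insert a s ha ih =>
    simp only [prod_insert ha]
    exact (h a (mem_insert_self _ _)).mul hP (ih fun i hi => h i (mem_insert_of_mem hi))

/-- transfer from an initial segment of a class modulo `W` to the periodic model -/
lemma Rep.transfer {P W : ℕ} (hP : 0 < P) (hW : 0 < W) (hc : Nat.Coprime W P) (b X : ℕ)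
    {F : ℕ → ℝ} {N : ℝ} (h : Rep P F N) :
    |∑ n ∈ range X, ind W b n * F n - X / W * avg P F| ≤ N := by
  induction h with
  | cls d a hd c =>
    have hd0 := Nat.pos_of_dvd_of_pos hd hP
    have hcd : Nat.Coprime W d := hc.coprime_dvd_right hd
    rw [avg_mul_left, avg_ind hP hd]
    rcases ind_mul_ind hW hd0 b a with h | ⟨f, h⟩
    · exfalso
      have h1 := avg_mul_coprime hcd hW hd0 (F := ind W b) (G := ind d a) ?_ ?_
      · rw [avg_congr h, avg_const (Nat.mul_pos hW hd0), avg_ind hW dvd_rfl, avg_ind hd0 dvd_rfl] at h1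
        have : (0 : ℝ) < 1 / W * (1 / d) := by positivity
        linarith
      · intro n m hnm; simp only [ind, (hnm.add_right b).dvd_iff dvd_rfl]
      · intro n m hnm; simp only [ind, (hnm.add_right a).dvd_iff dvd_rfl]
    · rw [hcd.lcm_eq_mul] at h
      have h2 := abs_sum_ind_sub_le (Nat.mul_pos hW hd0) f X
      have h3 : ∑ n ∈ range X, ind W b n * (c * ind d a n) - X / W * (c * (1 / d))
          = c * (∑ n ∈ range X, ind (W * d) f n - X / (W * d : ℕ)) := by
        rw [mul_sub, mul_sum]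
        congr 1
        · exact sum_congr rfl fun n _ => by rw [← h n]; ring
        · push_cast; field_simp
      rw [h3, abs_mul]
      calc |c| * _ ≤ |c| * 1 := by gcongr
        _ = _ := mul_one _
  | add _ _ i1 i2 =>
    rw [avg_add]
    simp only [mul_add, sum_add_distrib]
    refine le_trans (le_of_eq ?_) ((abs_add_le _ _).trans (add_le_add i1 i2))
    congr 1; ring
  | mono _ hle i1 => linarith

end Crest.Agent.H0021
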