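import Crest.Agent.H0021.Moments

/-! Elementary estimates for sums and products over primes. -/

open Finset

namespace Crest.Agent.H0021

/-- primes in `(a, b]` -/
def PI (a b : ℕ) : Finset ℕ := (Ioc a b).filter Nat.Prime

lemma mem_PI {a b p : ℕ} : p ∈ PI a b ↔ (a < p ∧ p ≤ b) ∧ p.Prime := by simp [PI]

lemma PI_union {a b c : ℕ} (h1 : a ≤ b) (h2 : b ≤ c) : PI a c = PI a b ∪ PI b c := by
  ext p; simp only [mem_union, mem_PI]
  constructor
  · rintro ⟨h, hp⟩
    by_cases h' : p ≤ b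
    · exact Or.inl ⟨⟨h.1, h'⟩, hp⟩
    · exact Or.inr ⟨⟨by omega, h.2⟩, hp⟩
  · rintro (⟨h, hp⟩ | ⟨h, hp⟩) <;> exact ⟨by omega, hp⟩

lemma PI_disj (a b c : ℕ) : Disjoint (PI a b) (PI b c) :=
  disjoint_left.2 fun p h1 h2 => by
    have := (mem_PI.1 h1).1; have := (mem_PI.1 h2).1; omega

lemma sum_PI {a b c : ℕ} (h1 : a ≤ b) (h2 : b ≤ c) (f : ℕ → ℝ) :
    ∑ p ∈ PI a c, f p = ∑ p ∈ PI a b, f p + ∑ p ∈ PI b c, f p := by
  rw [PI_union h1 h2, sum_union (PI_disj _ _ _)]

lemma P0_PI {a b c : ℕ} (h1 : a ≤ b) (h2 : b ≤ c) : P0 (PI a c) = P0 (PI a b) * P0 (PI b c) := by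
  rw [P0, PI_union h1 h2, prod_union (PI_disj _ _ _)]; rfl

lemma theta_sub {a b : ℝ} (h : a ≤ b) :
    Chebyshev.theta b - Chebyshev.theta a = ∑ p ∈ PI ⌊a⌋₊ ⌊b⌋₊, Real.log p := by
  have := sum_PI (Nat.zero_le ⌊a⌋₊) (Nat.floor_le_floor h) (fun p => Real.log p)
  unfold Chebyshev.theta
  unfold PI at this ⊢
  linarith

lemma sum_inv_dyadic {s t : ℝ} (hs : 1 < s) (ht : s ≤ t) :
    ∑ p ∈ PI ⌊t⌋₊ ⌊2 * t⌋₊, (1 : ℝ) / p ≤ 2 * Real.log 4 / Real.log s := by
  have hl := Real.log_pos hs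
  have ht0 : 0 < t := by linarith
  calc _ ≤ ∑ p ∈ PI ⌊t⌋₊ ⌊2 * t⌋₊, 1 / (t * Real.log s) * Real.log p := by
        refine sum_le_sum fun p hp => ?_
        have h1 : t < p := Nat.lt_of_floor_lt (mem_PI.1 hp).1.1
        have h2 : Real.log s ≤ Real.log p := Real.log_le_log (by linarith) (by linarith)
        calc (1 : ℝ) / p ≤ 1 / t := by gcongr
          _ = 1 / (t * Real.log s) * Real.log s := by field_simp
          _ ≤ _ := by gcongr
    _ = 1 / (t * Real.log s) * (Chebyshev.theta (2 * t) - Chebyshev.theta t) := by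
        rw [theta_sub (by linarith), mul_sum]
    _ ≤ 1 / (t * Real.log s) * (Real.log 4 * (2 * t)) := by
        gcongr
        have := Chebyshev.theta_le_log4_mul_x (x := 2 * t) (by linarith)
        have := Chebyshev.theta_nonneg t
        linarith
    _ = _ := by field_simp

lemma sum_inv_le {s : ℝ} (hs : 1 ≤ s) : ∑ p ∈ PI ⌊s⌋₊ ⌊s ^ 2⌋₊, (1 : ℝ) / p ≤ 12 := by
  by_cases h2 : s ^ 2 < 2
  · rw [sum_eq_zero]
    · norm_num
    intro p hp
    have h1 := (mem_PI.1 hp).2.two_le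
    have h3 := (Nat.le_floor_iff (by positivity)).1 (h1.trans (mem_PI.1 hp).1.2)
    push_cast at h3; linarith
  have hs1 : 1 < s := by
    rcases hs.lt_or_eq with h | h
    · exact h
    · subst h; norm_num at h2
  have hl := Real.log_pos hs1
  have hl2 : 0 < Real.log 2 := Real.log_pos (by norm_num)
  have h4 : Real.log 4 = 2 * Real.log 2 := by
    rw [show (4 : ℝ) = 2 ^ 2 by norm_num, Real.log_pow]; norm_num
  have h5 : Real.log 2 ≤ 2 * Real.log s := by
    have := Real.log_le_log (by norm_num) (not_lt.1 h2)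
    rw [Real.log_pow] at this; exact_mod_cast this
  have key : ∀ k : ℕ, ∑ p ∈ PI ⌊s⌋₊ ⌊2 ^ k * s⌋₊, (1 : ℝ) / p
      ≤ k * (2 * Real.log 4 / Real.log s) := by
    intro k
    induction k with
    | zero => simp [PI]
    | succ k ih =>
      have a1 : s ≤ 2 ^ k * s := le_mul_of_one_le_left (by linarith) (one_le_pow₀ (by norm_num))
      have a2 := sum_inv_dyadic hs1 a1
      rw [pow_succ', mul_assoc, sum_PI (Nat.floor_le_floor a1) (Nat.floor_le_floor (by linarith))]
      push_cast; linarith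
  set k := ⌈Real.log s / Real.log 2⌉₊
  have k1 : Real.log s / Real.log 2 ≤ k := Nat.le_ceil _
  have k2 : (k : ℝ) ≤ Real.log s / Real.log 2 + 1 := (Nat.ceil_lt_add_one (by positivity)).le
  have k3 : s ≤ 2 ^ k := by
    rw [← Real.log_le_log_iff (by linarith) (by positivity), Real.log_pow]
    rwa [div_le_iff₀ hl2] at k1
  calc _ ≤ ∑ p ∈ PI ⌊s⌋₊ ⌊2 ^ k * s⌋₊, (1 : ℝ) / p := by
        refine sum_le_sum_of_subset_of_nonneg (filter_subset_filter _ (Ioc_subset_Ioc_right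
          (Nat.floor_le_floor ?_))) fun _ _ _ => by positivity
        rw [sq]; gcongr
    _ ≤ (Real.log s / Real.log 2 + 1) * (2 * Real.log 4 / Real.log s) := by
        refine (key k).trans ?_
        gcongr
    _ = 4 + 4 * Real.log 2 / Real.log s := by rw [h4]; field_simp; ring
    _ ≤ 12 := by
        have : 4 * Real.log 2 / Real.log s ≤ 8 := by rw [div_le_iff₀ hl]; linarith
        linarith

lemma theta_lower {x : ℝ} (hx : 10 ^ 8 ≤ x) : 0.6 * x ≤ Chebyshev.theta x := by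
  refine le_trans ?_ (Chebyshev.theta_ge' (by linarith))
  obtain ⟨u, hu0, rfl⟩ : ∃ u : ℝ, 0 < u ∧ x = u ^ 4 := by
    refine ⟨√(√x), by positivity, ?_⟩
    rw [show 4 = 2 * 2 by norm_num, pow_mul, Real.sq_sqrt (by positivity),
      Real.sq_sqrt (by positivity)]
  have hu : 100 ≤ u := by
    by_contra h
    have : u ^ 4 < 100 ^ 4 := by gcongr; linarith
    linarith
  have h1 : √(u ^ 4) = u ^ 2 := by
    rw [show 4 = 2 * 2 by norm_num, pow_mul, Real.sqrt_sq (by positivity)]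
  have h2 : Real.log u ≤ u - 1 := Real.log_le_sub_one_of_pos hu0
  have h3 : Real.log (u ^ 4) ≤ 4 * u := by rw [Real.log_pow]; push_cast; linarith
  have h4 : Real.log (u ^ 4 + 2) ≤ 5 * u := by
    have : u ^ 4 + 2 ≤ u ^ 5 := by nlinarith
    refine (Real.log_le_log (by positivity) this).trans ?_
    rw [Real.log_pow]; push_cast; linarith
  have h5 := Real.log_two_gt_d9
  have h6 := Real.log_two_lt_d9
  have h7 : 2 * u ^ 2 * Real.log (u ^ 4) ≤ 2 * u ^ 2 * (4 * u) := by gcongr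
  have h8 : 100 * u ^ 3 ≤ u ^ 4 := by nlinarith [pow_pos hu0 3]
  have h9 : 100 * u ≤ u ^ 3 := by nlinarith
  rw [h1]
  nlinarith

lemma sum_inv_ge {s : ℝ} (hs : 10 ^ 8 ≤ s) :
    1 / (16 * Real.log 4) ≤ ∑ p ∈ PI ⌊s⌋₊ ⌊s ^ 2⌋₊, (1 : ℝ) / p := by
  have hl : 0 < Real.log s := Real.log_pos (by linarith)
  have hl4 : 0 < Real.log 4 := Real.log_pos (by norm_num)
  have h4 : Real.log 4 = 2 * Real.log 2 := by
    rw [show (4 : ℝ) = 2 ^ 2 by norm_num, Real.log_pow]; norm_num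
  have step : ∀ t, s ≤ t → 4 * t ≤ s ^ 2 →
      1 / (8 * Real.log s) ≤ ∑ p ∈ PI ⌊t⌋₊ ⌊4 * t⌋₊, (1 : ℝ) / p := by
    intro t h1 h2
    have ht0 : 0 < t := by linarith
    calc 1 / (8 * Real.log s) = 1 / (4 * t * (2 * Real.log s)) * t := by field_simp; ring
      _ ≤ 1 / (4 * t * (2 * Real.log s)) * (Chebyshev.theta (4 * t) - Chebyshev.theta t) := by
          gcongr
          have := Chebyshev.theta_le_log4_mul_x (x := t) ht0.le
          have := theta_lower (x := 4 * t) (by linarith)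
          have h6 := Real.log_two_lt_d9
          nlinarith
      _ = ∑ p ∈ PI ⌊t⌋₊ ⌊4 * t⌋₊, 1 / (4 * t * (2 * Real.log s)) * Real.log p := by
          rw [theta_sub (by linarith), mul_sum]
      _ ≤ _ := by
          refine sum_le_sum fun p hp => ?_
          have a1 : (p : ℝ) ≤ 4 * t := (Nat.le_floor_iff (by positivity)).1 (mem_PI.1 hp).1.2
          have a2 : (0 : ℝ) < p := by exact_mod_cast (mem_PI.1 hp).2.pos
          have a3 : Real.log p ≤ 2 * Real.log s := by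
            have := Real.log_le_log a2 (a1.trans h2)
            rw [Real.log_pow] at this; exact_mod_cast this
          calc _ ≤ 1 / (4 * t * (2 * Real.log s)) * (2 * Real.log s) := by gcongr
            _ = 1 / (4 * t) := by field_simp
            _ ≤ _ := by gcongr
  have key : ∀ k : ℕ, 4 ^ k ≤ s → k * (1 / (8 * Real.log s))
      ≤ ∑ p ∈ PI ⌊s⌋₊ ⌊4 ^ k * s⌋₊, (1 : ℝ) / p := by
    intro k
    induction k with
    | zero => simp [PI]
    | succ k ih =>
      intro hk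
      have a0 : (4 : ℝ) ^ k ≤ 4 ^ (k + 1) := pow_le_pow_right₀ (by norm_num) (by omega)
      have a1 : s ≤ 4 ^ k * s := le_mul_of_one_le_left (by linarith) (one_le_pow₀ (by norm_num))
      have a2 := step _ a1 (by rw [← mul_assoc, ← pow_succ', sq]; gcongr)
      have := ih (a0.trans hk)
      rw [pow_succ', mul_assoc, sum_PI (Nat.floor_le_floor a1) (Nat.floor_le_floor (by linarith))]
      push_cast; linarith
  set k := ⌊Real.log s / Real.log 4⌋₊
  have k1 : (k : ℝ) ≤ Real.log s / Real.log 4 := Nat.floor_le (by positivity)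
  have k2 : Real.log s / Real.log 4 < k + 1 := Nat.lt_floor_add_one _
  have k3 : 4 ^ k ≤ s := by
    rw [← Real.log_le_log_iff (by positivity) (by linarith), Real.log_pow]
    rwa [le_div_iff₀ hl4] at k1
  have k4 : 1 ≤ k := by
    refine Nat.le_floor ?_
    rw [Nat.cast_one, one_le_div hl4]
    exact Real.log_le_log (by norm_num) (by linarith)
  have k5 : (1 : ℝ) ≤ k := by exact_mod_cast k4
  calc 1 / (16 * Real.log 4) = (Real.log s / Real.log 4 / 2) * (1 / (8 * Real.log s)) := by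
        field_simp; ring
    _ ≤ k * (1 / (8 * Real.log s)) := by gcongr; linarith
    _ ≤ _ := (key k k3).trans (sum_le_sum_of_subset_of_nonneg (filter_subset_filter _
        (Ioc_subset_Ioc_right (Nat.floor_le_floor (by rw [sq]; gcongr)))) fun _ _ _ => by positivity)

lemma P0_le_inv_log {s : ℝ} (hs : 1 < s) : P0 (PI 0 ⌊s⌋₊) ≤ 1 / Real.log s := by
  let f : ℕ →* ℝ := ⟨⟨fun n => (n : ℝ)⁻¹, by simp⟩, fun a b => by simp [mul_comm]⟩
  have h1 := (EulerProduct.summable_and_hasSum_smoothNumbers_prod_primesBelow_geometric (f := f)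
    (fun {p} hp => by
      have : (1 : ℝ) < p := by exact_mod_cast hp.one_lt
      simp only [f, MonoidHom.coe_mk, OneHom.coe_mk, norm_inv, Real.norm_natCast]
      exact inv_lt_one_of_one_lt₀ this) (⌊s⌋₊ + 1)).2
  have h2 := (hasSum_subtype_iff_indicator (f := fun n : ℕ => f n)).1 h1
  have h3 := sum_le_hasSum (Icc 1 ⌊s⌋₊) (fun n _ => Set.indicator_nonneg
    (fun m _ => by simp [f]) n) h2
  have h4 : ∑ i ∈ Icc 1 ⌊s⌋₊, (⌊s⌋₊ + 1).smoothNumbers.indicator (fun n : ℕ => f n) i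
      = harmonic ⌊s⌋₊ := by
    rw [harmonic_eq_sum_Icc]
    push_cast
    refine sum_congr rfl fun i hi => ?_
    have := mem_Icc.1 hi
    rw [Set.indicator_of_mem (Nat.mem_smoothNumbers_of_lt (by omega) (by omega))]
    rfl
  have h5 : ∏ p ∈ (⌊s⌋₊ + 1).primesBelow, (1 - f p)⁻¹ = (P0 (PI 0 ⌊s⌋₊))⁻¹ := by
    rw [P0, ← prod_inv_distrib]
    refine prod_congr ?_ fun p _ => by simp [f]
    ext p
    simp only [Nat.mem_primesBelow, mem_PI]
    exact ⟨fun h => ⟨⟨h.2.pos, by omega⟩, h.2⟩, fun h => ⟨by omega, h.2⟩⟩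
  have h6 := log_le_harmonic_floor s (by linarith)
  have h7 : 0 < P0 (PI 0 ⌊s⌋₊) := P0_pos fun p hp => (mem_PI.1 hp).2
  rw [one_div, le_inv_comm₀ h7 (Real.log_pos hs), ← h5]
  linarith

lemma totient_primorial (y : ℕ) : (Nat.totient (primorial y) : ℝ) = primorial y * P0 (PI 0 y) := by
  have h := congrArg (fun q : ℚ => (q : ℝ)) (Nat.totient_eq_mul_prod_factors (primorial y))
  simp only [Rat.cast_natCast, Rat.cast_mul, Rat.cast_prod, Rat.cast_sub, Rat.cast_one,
    Rat.cast_inv] at h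
  rw [h, P0, primeFactors_primorial]
  congr 1
  refine prod_congr ?_ fun p _ => by simp
  ext p
  simp only [Nat.mem_primesLE, mem_PI]
  exact ⟨fun h => ⟨⟨h.2.pos, h.1⟩, h.2⟩, fun h => ⟨h.1.2, h.2⟩⟩

end Crest.Agent.H0021
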