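import Crest.Agent.H0021.Main
import Crest.Agent.H0021.Primes

/-! The concrete block system. -/

open Finset

namespace Crest.Agent.H0021

noncomputable def zeta (E : ℝ) (l : ℕ) : ℝ := Real.exp (E / 2 ^ l)

lemma zeta_sq (E : ℝ) (l : ℕ) : zeta E l = zeta E (l + 1) ^ 2 := by
  unfold zeta
  rw [← Real.exp_nat_mul]; congr 1; push_cast; rw [pow_succ]; field_simp

lemma one_le_zeta {E : ℝ} (hE : 0 ≤ E) (l : ℕ) : 1 ≤ zeta E l := Real.one_le_exp (by positivity)

lemma zeta_anti {E : ℝ} (hE : 0 ≤ E) {l l' : ℕ} (h : l ≤ l') : zeta E l' ≤ zeta E l := by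
  unfold zeta
  gcongr
  norm_num

noncomputable def BB (y : ℕ) (E : ℝ) (l : ℕ) : Finset ℕ :=
  PI (max y ⌊zeta E (l + 1)⌋₊) ⌊zeta E l⌋₊

lemma P0_empty : P0 ∅ = 1 := by simp [P0]

lemma PI_eq_empty {a b : ℕ} (h : b ≤ a) : PI a b = ∅ := by simp [PI, Ioc_eq_empty_of_le h]

lemma prod_BB {y : ℕ} {E : ℝ} (hE : 0 ≤ E) {r n : ℕ} (h : r ≤ n) :
    (∏ l ∈ Ico r n, P0 (BB y E l)) * P0 (PI y ⌊zeta E n⌋₊) = P0 (PI y ⌊zeta E r⌋₊) := by
  induction n, h using Nat.le_induction with
  | base => simp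
  | succ n h ih =>
    rw [prod_Ico_succ_top h, mul_assoc, ← ih]
    congr 1
    unfold BB
    rcases le_total y ⌊zeta E (n + 1)⌋₊ with h' | h'
    · rw [max_eq_right h', mul_comm,
        ← P0_PI h' (Nat.floor_le_floor (zeta_anti hE (Nat.le_succ n)))]
    · rw [max_eq_left h', PI_eq_empty h', P0_empty, mul_one]

/-- the conditions on the parameters -/
structure Par (y I : ℕ) (E : ℝ) : Prop where
  hI : 1 ≤ I
  hy : 3 ≤ y
  hE : 1 ≤ E
  big : 10 ^ 8 ≤ zeta E I
  ysmall : (y : ℝ) ≤ zeta E I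

noncomputable def mkBlk {y I : ℕ} {E : ℝ} (h : Par y I E) : Blk where
  m := I + ⌈E⌉₊
  I := I
  B := BB y E
  Λ := 12
  lam := 1 / (16 * Real.log 4)
  E := E
  δ := 1 / (P0 (PI 0 y) * E)
  prime := fun _ _ hp => (mem_PI.1 hp).2
  disj := by
    have key : ∀ l l', l < l' → Disjoint (BB y E l) (BB y E l') := by
      intro l l' hl
      refine disjoint_left.2 fun p h1 h2 => ?_
      have a1 := (mem_PI.1 h1).1.1
      have a2 := (mem_PI.1 h2).1.2
      have a3 := Nat.floor_le_floor (zeta_anti (by linarith [h.hE] : 0 ≤ E) (Nat.succ_le_of_lt hl))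
      have a4 := le_max_right y ⌊zeta E (l + 1)⌋₊
      simp only [Nat.succ_eq_add_one] at a3
      omega
    intro l l' hne
    rcases Nat.lt_or_gt_of_ne hne with h' | h'
    · exact key _ _ h'
    · exact (key _ _ h').symm
  sumle := by
    intro l
    refine le_trans ?_ (sum_inv_le (one_le_zeta (by linarith [h.hE] : 0 ≤ E) (l + 1)))
    rw [← zeta_sq]
    exact sum_le_sum_of_subset_of_nonneg (filter_subset_filter _
      (Ioc_subset_Ioc_left (le_max_right _ _))) fun _ _ _ => by positivity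
  sumge := by
    intro l hl
    have a1 := zeta_anti (by linarith [h.hE] : 0 ≤ E) (Nat.succ_le_of_lt hl)
    have := sum_inv_ge (h.big.trans a1)
    rw [← zeta_sq] at this
    rwa [BB, max_eq_right (Nat.le_floor (h.ysmall.trans a1))]
  lam_pos := by have : 0 < Real.log 4 := Real.log_pos (by norm_num); positivity
  hI := h.hI
  hIm := Nat.le_add_right _ _
  E_nonneg := by linarith [h.hE]
  card_le := by
    intro l
    have a1 := one_le_zeta (by linarith [h.hE] : 0 ≤ E) l
    have a2 : 1 ≤ ⌊zeta E l⌋₊ := Nat.le_floor (by simpa using a1)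
    have a3 : (BB y E l).card ≤ (Ioc 1 ⌊zeta E l⌋₊).card := card_le_card fun p hp =>
      mem_Ioc.2 ⟨(mem_PI.1 hp).2.one_lt, (mem_PI.1 hp).1.2⟩
    rw [Nat.card_Ioc] at a3
    have a4 : (BB y E l).card + 1 ≤ ⌊zeta E l⌋₊ := by omega
    have a5 : ((BB y E l).card : ℝ) + 1 ≤ ⌊zeta E l⌋₊ := by exact_mod_cast a4
    exact a5.trans (Nat.floor_le (by linarith))
  lam_inv := by
    refine le_trans ?_ h.big
    have := Real.log_le_sub_one_of_pos (by norm_num : (0 : ℝ) < 4)
    rw [one_div_one_div]; linarith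
  hP0 := by
    intro r hr
    have hE := h.hE
    have a1 := prod_BB (y := y) (by linarith : 0 ≤ E) (hr.trans (Nat.le_add_right I ⌈E⌉₊))
    have a2 : ⌊zeta E (I + ⌈E⌉₊)⌋₊ ≤ y := by
      refine Nat.floor_le_of_le ?_
      have b1 : E ≤ 2 ^ (I + ⌈E⌉₊) := by
        refine (Nat.le_ceil E).trans ?_
        exact_mod_cast (Nat.le_add_left _ I).trans (Nat.lt_pow_self (by norm_num : 1 < 2)).le
      have b2 : zeta E (I + ⌈E⌉₊) ≤ Real.exp 1 := by
        apply Real.exp_le_exp.2
        rwa [div_le_one (by positivity)]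
      have b3 : (3 : ℝ) ≤ y := by exact_mod_cast h.hy
      linarith [Real.exp_one_lt_d9]
    rw [PI_eq_empty a2, P0_empty, mul_one] at a1
    have a3 := zeta_anti (by linarith : 0 ≤ E) hr
    have a4 := P0_le_inv_log (s := zeta E r) (by linarith [h.big])
    rw [P0_PI (Nat.zero_le y) (Nat.le_floor (h.ysmall.trans a3)), zeta, Real.log_exp] at a4
    have a5 : 0 < P0 (PI 0 y) := P0_pos fun p hp => (mem_PI.1 hp).2
    rw [a1]
    refine le_of_mul_le_mul_left (a4.trans (le_of_eq ?_)) a5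
    field_simp

lemma card_dvd_le {y M d : ℕ} {H : ℝ} (hy : 3 ≤ y) (hd : 0 < d) (hH : (d : ℝ) ≤ H) :
    (((PI y M).filter (· ∣ d)).card : ℝ) ≤ Real.log H / Real.log y := by
  have hy' : (3 : ℝ) ≤ y := by exact_mod_cast hy
  have hd' : (0 : ℝ) < d := by positivity
  have h1 : ∏ p ∈ (PI y M).filter (· ∣ d), p ∣ d :=
    Finset.prod_primes_dvd _ (fun p hp => (mem_PI.1 (mem_filter.1 hp).1).2.prime)
      fun p hp => (mem_filter.1 hp).2
  have h2 : y ^ ((PI y M).filter (· ∣ d)).card ≤ ∏ p ∈ (PI y M).filter (· ∣ d), p :=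
    pow_card_le_prod _ _ _ fun p hp => (mem_PI.1 (mem_filter.1 hp).1).1.1.le
  have h3 : (y : ℝ) ^ ((PI y M).filter (· ∣ d)).card ≤ H :=
    le_trans (by exact_mod_cast h2.trans (Nat.le_of_dvd hd h1)) hH
  have h4 := Real.log_le_log (by positivity) h3
  rw [Real.log_pow] at h4
  rwa [le_div_iff₀ (Real.log_pos (by linarith))]

lemma tauTot_le {y I : ℕ} {E : ℝ} (h : Par y I E) {A : Finset ℕ} {k H : ℕ} (hk : A.card ≤ k)
    (hH : ∀ j ∈ A, j ≤ H) :
    (mkBlk h).tauTot A ≤ 1 / y + k ^ 2 * (Real.log H / Real.log y) / y := by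
  have hy := h.hy
  have hy' : (3 : ℝ) ≤ y := by exact_mod_cast hy
  have hE : 0 ≤ E := by linarith [h.hE]
  have hlog : 0 ≤ Real.log H / Real.log y :=
    div_nonneg (Real.log_natCast_nonneg _) (Real.log_natCast_nonneg _)
  set M := y + ⌊zeta E 0⌋₊
  have h1 : (mkBlk h).tauTot A ≤ ∑ q ∈ PI y M, tau A q := by
    rw [Blk.tauTot, ← sum_biUnion fun l _ l' _ hne => (mkBlk h).disj l l' hne]
    refine sum_le_sum_of_subset_of_nonneg (fun p hp => ?_) fun _ _ _ => tau_nonneg _ _
    obtain ⟨l, _, hl⟩ := mem_biUnion.1 hp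
    have a1 := mem_PI.1 hl
    have a2 := Nat.floor_le_floor (zeta_anti hE (Nat.zero_le l))
    have a3 := le_max_left y ⌊zeta E (l + 1)⌋₊
    exact mem_PI.2 ⟨by omega, a1.2⟩
  refine h1.trans ?_
  simp only [tau, sum_add_distrib]
  refine add_le_add ?_ ?_
  · have := sum_Ioc_inv_sq_le_sub (α := ℝ) (k := y) (n := M) (by omega) (Nat.le_add_right _ _)
    have h2 : (0 : ℝ) ≤ (M : ℝ)⁻¹ := by positivity
    simp only [one_div]
    refine le_trans (sum_le_sum_of_subset_of_nonneg (filter_subset _ _) fun _ _ _ => by positivity)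
      (by linarith)
  · calc _ ≤ ∑ q ∈ PI y M, ∑ j ∈ A, ∑ j' ∈ A,
          (if j' < j ∧ q ∣ j - j' then 1 / (y : ℝ) else 0) := by
          refine sum_le_sum fun q hq => ?_
          have p0 : ∀ j j', 0 ≤ (if j' < j ∧ q ∣ j - j' then 1 / (y : ℝ) else 0) := by
            intro j j'; split_ifs <;> positivity
          split_ifs with hc
          · have : ∃ j ∈ A, ∃ j' ∈ A, j' < j ∧ q ∣ j - j' := by
              obtain ⟨j, hj, j', hj', hne, hm⟩ := hc
              rcases Nat.lt_or_gt_of_ne hne with h' | h'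
              · exact ⟨j', hj', j, hj, h', (Nat.modEq_iff_dvd' h'.le).1 hm⟩
              · exact ⟨j, hj, j', hj', h', (Nat.modEq_iff_dvd' h'.le).1 hm.symm⟩
            obtain ⟨j, hj, j', hj', hc⟩ := this
            refine le_trans ?_ (single_le_sum (fun j _ => sum_nonneg fun j' _ => p0 j j') hj)
            refine le_trans ?_ (single_le_sum (fun j' _ => p0 j j') hj')
            rw [if_pos hc]
            have : (y : ℝ) ≤ q := by exact_mod_cast (mem_PI.1 hq).1.1.le
            gcongr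
          · exact sum_nonneg fun j _ => sum_nonneg fun j' _ => p0 j j'
      _ ≤ ∑ j ∈ A, ∑ j' ∈ A, (Real.log H / Real.log y) / y := by
          rw [sum_comm]
          refine sum_le_sum fun j hj => ?_
          rw [sum_comm]
          refine sum_le_sum fun j' hj' => ?_
          by_cases hlt : j' < j
          · simp only [hlt, true_and]
            rw [← sum_filter, sum_const, nsmul_eq_mul, mul_one_div]
            gcongr
            exact card_dvd_le hy (by omega) (by exact_mod_cast (Nat.sub_le _ _).trans (hH j hj))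
          · simp only [hlt, false_and, if_false, sum_const_zero]; positivity
      _ ≤ _ := by
          simp only [sum_const, nsmul_eq_mul]
          have : (A.card : ℝ) ≤ k := by exact_mod_cast hk
          rw [← mul_assoc, ← sq, mul_div_assoc]
          gcongr

noncomputable def Cb (I : ℕ) : ℝ :=
  Real.exp (2 * 12) ^ (6 * 2 ^ I) * 83 ^ (6 * 2 ^ I)
    * Real.exp ((6 * 2 ^ I : ℕ) * 81 ^ (6 * 2 ^ I) * 12)

lemma starHyp {y I : ℕ} {E η : ℝ} (h : Par y I E) {H X : ℕ} (hX : 0 < X) (b : ℕ)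
    (h1 : Real.exp (Cb I * (1 / y + (6 * 2 ^ I : ℕ) ^ 2 * (Real.log H / Real.log y) / y)) - 1
      ≤ η / 2)
    (h2 : (primorial y : ℝ) / X * Real.exp (96 * E) * E ^ (6 * 2 ^ I) ≤ η / 2) :
    (mkBlk h).StarHyp (Fin.val : Fin (H + 1) → ℕ) (primorial y) b X η := by
  intro φ ℓ a1 a2 a3 a4 a5
  have hE := h.hE
  have := (mkBlk h).star (Fin.val : Fin (H + 1) → ℕ) Fin.val_injective (k := 6 * 2 ^ I)
    (η₁ := η / 2) (η₂ := η / 2) Blk.one_le_Y b (primorial_pos y) hX ?_ ?_ ?_ φ ℓ a1 a2 a3 a4 a5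
  · rwa [add_halves] at this
  · refine Nat.Coprime.prod_right fun l _ => Nat.Coprime.prod_right fun q hq => ?_
    have b1 := mem_PI.1 hq
    have b2 := le_max_left y ⌊zeta E (l + 1)⌋₊
    rw [Nat.coprime_comm, b1.2.coprime_iff_not_dvd, b1.2.dvd_primorial_iff]
    omega
  · intro A hA hk
    refine le_trans ?_ h1
    have : 0 ≤ Cb I := by unfold Cb; positivity
    refine sub_le_sub_right (Real.exp_le_exp.2 (mul_le_mul_of_nonneg_left
      (tauTot_le h hk fun j hj => ?_) this)) _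
    obtain ⟨i, _, rfl⟩ := mem_image.1 (hA hj)
    omega
  · intro a ha
    have e1 : (mkBlk h).Y ^ (6 * 2 ^ I) = Real.exp (96 * E) := by
      rw [Blk.Y, ← Real.exp_nat_mul]
      congr 1
      have h3 : (2 : ℝ) ^ I = 2 ^ (I - 1) + 2 ^ (I - 1) := by
        exact_mod_cast Blk.two_pow_I (D := mkBlk h)
      change ((6 * 2 ^ I : ℕ) : ℝ) * (8 * E / 2 ^ (I - 1)) = 96 * E
      push_cast
      rw [h3]; field_simp; ring
    have e2 : 1 / E ≤ (mkBlk h).κ := by
      have b1 := (mkBlk h).one_le_β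
      have b2 := (mkBlk h).K_pos
      have b3 := (mkBlk h).Λ_nonneg
      have b4 : 1 / E ≤ (mkBlk h).δ := by
        have c1 : 0 < P0 (PI 0 y) := P0_pos fun p hp => (mem_PI.1 hp).2
        have c2 : P0 (PI 0 y) ≤ 1 := prod_le_one (fun p hp => by
          have : (1 : ℝ) ≤ p := by exact_mod_cast (mem_PI.1 hp).2.one_le
          rw [sub_nonneg, div_le_one (by positivity)]; exact this) fun p _ => by
          have : (0 : ℝ) ≤ 1 / p := by positivity
          linarith
        change 1 / E ≤ 1 / (P0 (PI 0 y) * E)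
        gcongr
        exact mul_le_of_le_one_left (by linarith) c2
      refine b4.trans (le_mul_of_one_le_left (mkBlk h).δ_pos.le ?_)
      exact one_le_mul_of_one_le_of_one_le (one_le_mul_of_one_le_of_one_le
        (one_le_pow₀ (one_le_mul_of_one_le_of_one_le (one_le_pow₀ b1)
          (Real.one_le_exp (by positivity)))) (Real.one_le_exp b2.le)) (one_le_pow₀ (by norm_num))
    have e3 : (1 / E) ^ (6 * 2 ^ I) ≤ (mkBlk h).κ ^ a :=
      (pow_le_pow_of_le_one (by positivity) (by rw [div_le_one (by linarith)]; exact hE) ha).trans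
        (pow_le_pow_left₀ (by positivity) e2 a)
    rw [e1]
    calc _ = (primorial y : ℝ) / X * Real.exp (96 * E) * E ^ (6 * 2 ^ I) * (1 / E) ^ (6 * 2 ^ I) := by
          rw [mul_assoc _ (E ^ _), ← mul_pow, mul_one_div_cancel (by linarith), one_pow, mul_one]
      _ ≤ _ := by
          gcongr
          exact le_trans (by positivity) h2

lemma rough_of_prime {y I : ℕ} {E : ℝ} (h : Par y I E) {n : ℕ} (hn : n.Prime)
    (hE : Real.exp E < n) : (mkBlk h).Rough n := by
  intro l _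
  rw [om, card_eq_zero, filter_eq_empty_iff]
  intro p hp hd
  have a1 := mem_PI.1 hp
  have a2 := (Nat.prime_dvd_prime_iff_eq a1.2 hn).1 hd
  subst a2
  have a3 := (Nat.le_floor_iff (Real.exp_pos _).le).1 a1.1.2
  have a4 := zeta_anti (by linarith [h.hE] : 0 ≤ E) (Nat.zero_le l)
  simp only [zeta, pow_zero, div_one] at a3 a4
  linarith

end Crest.Agent.H0021
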