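import Crest.Agent.H0021.Labels

/-! Polynomials in the local functions and their moments. -/

open Finset

set_option linter.unusedSectionVars false

namespace Crest.Agent.H0021

lemma EE_sum {α : Type*} (W b X : ℕ) (s : Finset α) (F : α → ℕ → ℝ) :
    EE W b X (fun n => ∑ i ∈ s, F i n) = ∑ i ∈ s, EE W b X (F i) := by
  unfold EE
  simp only [mul_sum]
  rw [sum_comm]

lemma EE_mul_left (W b X : ℕ) (c : ℝ) (F : ℕ → ℝ) :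
    EE W b X (fun n => c * F n) = c * EE W b X F := by
  unfold EE
  simp only [mul_sum]
  exact sum_congr rfl fun _ _ => by ring

lemma EE_add (W b X : ℕ) (F G : ℕ → ℝ) :
    EE W b X (fun n => F n + G n) = EE W b X F + EE W b X G := by
  unfold EE
  simp only [mul_add, sum_add_distrib]

lemma EE_mono (W b X : ℕ) {F G : ℕ → ℝ} (h : ∀ n, F n ≤ G n) : EE W b X F ≤ EE W b X G := by
  unfold EE
  gcongr with n
  · exact ind_nonneg _ _ _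
  · exact h n

lemma EE_congr (W b X : ℕ) {F G : ℕ → ℝ} (h : ∀ n, F n = G n) : EE W b X F = EE W b X G := by
  rw [show F = G from funext h]

variable {ι : Type*} [Fintype ι] [DecidableEq ι]

lemma prod_ite_mem_mul (Z : Finset ι) (f g : ι → ℝ) (hg : ∀ j ∈ Z, g j = 1) :
    ∏ j, (if j ∈ Z then f j else g j) = (∏ j ∈ Z, f j) * ∏ j, g j := by
  have : ∏ j ∈ Z, f j = ∏ j, if j ∈ Z then f j else 1 := by simp [prod_ite_mem]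
  rw [this, ← prod_mul_distrib]
  refine prod_congr rfl fun j _ => ?_
  split_ifs with h
  · rw [hg j h, mul_one]
  · rw [one_mul]

lemma sum4_pi (t₁ t₂ t₃ t₄ : ι → Finset ℕ) (F : ι → ℕ → ℕ → ℕ → ℕ → ℝ) :
    ∑ σ₁ ∈ Fintype.piFinset t₁, ∑ σ₂ ∈ Fintype.piFinset t₂, ∑ σ₃ ∈ Fintype.piFinset t₃,
      ∑ σ₄ ∈ Fintype.piFinset t₄, ∏ j, F j (σ₁ j) (σ₂ j) (σ₃ j) (σ₄ j)
      = ∏ j, ∑ a ∈ t₁ j, ∑ b ∈ t₂ j, ∑ c ∈ t₃ j, ∑ d ∈ t₄ j, F j a b c d := by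
  simp only [prod_univ_sum]

omit [Fintype ι] [DecidableEq ι] in
lemma abs_sum_le_of_subset {s t : Finset ι} (h : s ⊆ t) {f g : ι → ℝ} (h1 : ∀ a ∈ s, |f a| ≤ g a)
    (h2 : ∀ a, 0 ≤ g a) : |∑ a ∈ s, f a| ≤ ∑ a ∈ t, g a :=
  (abs_sum_le_sum_abs _ _).trans
    ((sum_le_sum h1).trans (sum_le_sum_of_subset_of_nonneg h fun a _ _ => h2 a))

omit [Fintype ι] [DecidableEq ι] in
lemma abs_sum4_le {s₁ s₂ s₃ s₄ t : Finset ι} (h₁ : s₁ ⊆ t) (h₂ : s₂ ⊆ t) (h₃ : s₃ ⊆ t)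
    (h₄ : s₄ ⊆ t) {f g : ι → ι → ι → ι → ℝ}
    (h : ∀ a ∈ s₁, ∀ b ∈ s₂, ∀ c ∈ s₃, ∀ d ∈ s₄, |f a b c d| ≤ g a b c d)
    (h0 : ∀ a b c d, 0 ≤ g a b c d) :
    |∑ a ∈ s₁, ∑ b ∈ s₂, ∑ c ∈ s₃, ∑ d ∈ s₄, f a b c d|
      ≤ ∑ a ∈ t, ∑ b ∈ t, ∑ c ∈ t, ∑ d ∈ t, g a b c d :=
  abs_sum_le_of_subset h₁ (fun a ha => abs_sum_le_of_subset h₂ (fun b hb =>
    abs_sum_le_of_subset h₃ (fun c hc => abs_sum_le_of_subset h₄ (h a ha b hb c hc) (h0 a b c))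
      fun c => sum_nonneg fun d _ => h0 a b c d)
      fun b => sum_nonneg fun c _ => sum_nonneg fun d _ => h0 a b c d)
    fun a => sum_nonneg fun b _ => sum_nonneg fun c _ => sum_nonneg fun d _ => h0 a b c d

namespace Blk

variable (D : Blk)

def lab (U : Finset ι) (j : ι) : Finset ℕ := if j ∈ U then range (D.I + 1) else {0}

def Conf (U : Finset ι) : Finset (ι → ℕ) := Fintype.piFinset (D.lab U)

def wts (σ : ι → ℕ) : ℕ := ∑ j, D.wt (σ j)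

noncomputable def G (sh : ι → ℕ) (σ : ι → ℕ) (n : ℕ) : ℝ := ∏ j, D.ev (D.gam (σ j)) (n + sh j)

noncomputable def Qf (sh : ι → ℕ) (U : Finset ι) (c : (ι → ℕ) → ℝ) (n : ℕ) : ℝ :=
  ∑ σ ∈ D.Conf U, c σ * D.G sh σ n

def Adm (c : (ι → ℕ) → ℝ) : Prop := ∀ σ, |c σ| ≤ 1 ∧ (2 ^ D.I < D.wts σ → c σ = 0)

noncomputable def DD (U : Finset ι) (c : (ι → ℕ) → ℝ) : ℝ :=
  ∑ σ ∈ D.Conf U, c σ ^ 2 * ∏ j, D.dd (σ j)

noncomputable def nuZ (sh : ι → ℕ) (Z : Finset ι) (n : ℕ) : ℝ := ∏ j ∈ Z, D.ev nu (n + sh j)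

def StarHyp (sh : ι → ℕ) (W b X : ℕ) (η : ℝ) : Prop :=
  ∀ (φ : ι → ℕ → ℕ → ℝ) (ℓ : ι → ℕ), (∀ i, D.GrG 81 (D.β ^ 4) (φ i)) →
    (∀ i, ℓ i = 0 → φ i = 1) → (∀ i, ℓ i ≠ 0 → D.Act (φ i)) →
    (∀ i j, Rep D.P (fun n => D.ev (φ i) (n + j)) (D.Y ^ ℓ i)) → (∑ i, ℓ i ≤ 6 * 2 ^ D.I) →
    |EE W b X (fun n => ∏ i, D.ev (φ i) (n + sh i)) - ∏ i, D.mean (φ i)|
      ≤ η * ∏ i, (if ℓ i = 0 then 1 else D.κ)

noncomputable def m4 (a b c d : ℕ) : ℝ := D.mean (D.gam a * D.gam b * D.gam c * D.gam d)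

noncomputable def e4 (a b c d : ℕ) : ℝ := if a = 0 ∧ b = 0 ∧ c = 0 ∧ d = 0 then 1 else D.κ

noncomputable def S4 (U₁ U₂ U₃ U₄ : Finset ι) (c₁ c₂ c₃ c₄ : (ι → ℕ) → ℝ) : ℝ :=
  ∑ σ₁ ∈ D.Conf U₁, ∑ σ₂ ∈ D.Conf U₂, ∑ σ₃ ∈ D.Conf U₃, ∑ σ₄ ∈ D.Conf U₄,
    c₁ σ₁ * c₂ σ₂ * c₃ σ₃ * c₄ σ₄ * ∏ j, D.m4 (σ₁ j) (σ₂ j) (σ₃ j) (σ₄ j)

variable {D}

lemma gam_zero : D.gam 0 = 1 := rfl

lemma mem_Conf {U : Finset ι} {σ : ι → ℕ} :
    σ ∈ D.Conf U ↔ (∀ j, σ j ≤ D.I) ∧ ∀ j ∉ U, σ j = 0 := by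
  simp only [Conf, Fintype.mem_piFinset, lab]
  constructor
  · intro h
    refine ⟨fun j => ?_, fun j hj => by simpa [hj] using h j⟩
    have := h j
    split_ifs at this
    · simpa [Nat.lt_succ_iff] using this
    · simp at this; omega
  · rintro ⟨h1, h2⟩ j
    split_ifs with h
    · simpa [Nat.lt_succ_iff] using h1 j
    · simpa using h2 j h

lemma gam4_act {a b c d : ℕ} (ha : a ≤ D.I) (hb : b ≤ D.I) (hc : c ≤ D.I) (hd : d ≤ D.I)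
    (h : ¬ (a = 0 ∧ b = 0 ∧ c = 0 ∧ d = 0)) :
    D.Act (D.gam a * D.gam b * D.gam c * D.gam d) := by
  by_cases h1 : a = 0
  · by_cases h2 : b = 0
    · by_cases h3 : c = 0
      · exact (gam_act hd (by tauto)).mul_left _
      · exact ((gam_act hc h3).mul_left _).mul_right _
    · exact (((gam_act hb h2).mul_left _).mul_right _).mul_right _
  · exact (((gam_act ha h1).mul_right _).mul_right _).mul_right _

lemma abs_m4_le {a b c d : ℕ} (ha : a ≤ D.I) (hb : b ≤ D.I) (hc : c ≤ D.I) (hd : d ≤ D.I) :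
    |D.m4 a b c d| ≤ D.e4 a b c d := by
  unfold e4
  split_ifs with h
  · obtain ⟨rfl, rfl, rfl, rfl⟩ := h
    simp [m4, gam_zero, mean_one]
  · exact abs_mean_le (gam4_gr ha hb hc hd) (gam4_act ha hb hc hd h)

lemma e4_nonneg (a b c d : ℕ) : 0 ≤ D.e4 a b c d := by
  have := D.κ_pos
  unfold e4; split_ifs <;> positivity

lemma term {sh : ι → ℕ} {W b X : ℕ} {η : ℝ} (H : D.StarHyp sh W b X η) {Z : Finset ι}
    (hZ : Z.card ≤ 2) {σ₁ σ₂ σ₃ σ₄ : ι → ℕ}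
    (h1 : σ₁ ∈ D.Conf Zᶜ) (h2 : σ₂ ∈ D.Conf Zᶜ) (h3 : σ₃ ∈ D.Conf Zᶜ) (h4 : σ₄ ∈ D.Conf Zᶜ)
    (w1 : D.wts σ₁ ≤ 2 ^ D.I) (w2 : D.wts σ₂ ≤ 2 ^ D.I) (w3 : D.wts σ₃ ≤ 2 ^ D.I)
    (w4 : D.wts σ₄ ≤ 2 ^ D.I) :
    |EE W b X (fun n => D.nuZ sh Z n * (D.G sh σ₁ n * D.G sh σ₂ n * D.G sh σ₃ n * D.G sh σ₄ n))
      - D.mean nu ^ Z.card * ∏ j, D.m4 (σ₁ j) (σ₂ j) (σ₃ j) (σ₄ j)|
      ≤ η * D.κ ^ Z.card * ∏ j, D.e4 (σ₁ j) (σ₂ j) (σ₃ j) (σ₄ j) := by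
  obtain ⟨a1, b1⟩ := mem_Conf.1 h1
  obtain ⟨a2, b2⟩ := mem_Conf.1 h2
  obtain ⟨a3, b3⟩ := mem_Conf.1 h3
  obtain ⟨a4, b4⟩ := mem_Conf.1 h4
  simp only [mem_compl, not_not] at b1 b2 b3 b4
  have := H (fun j => if j ∈ Z then nu else
      D.gam (σ₁ j) * D.gam (σ₂ j) * D.gam (σ₃ j) * D.gam (σ₄ j))
    (fun j => if j ∈ Z then 2 ^ D.I else D.wt (σ₁ j) + D.wt (σ₂ j) + D.wt (σ₃ j) + D.wt (σ₄ j))
    ?_ ?_ ?_ ?_ ?_
  · rw [mul_assoc]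
    convert this using 3
    · refine EE_congr _ _ _ fun n => ?_
      rw [prod_congr rfl fun i _ => apply_ite (fun φ => D.ev φ (n + sh i)) _ _ _, prod_ite_mem_mul]
      · simp only [nuZ, G, ev_mul, prod_mul_distrib]
      · intro j hj; simp [b1 j hj, b2 j hj, b3 j hj, b4 j hj, gam_zero, ev_one]
    · simp only [apply_ite D.mean]
      rw [prod_ite_mem_mul]
      · simp [m4]
      · intro j hj; simp [b1 j hj, b2 j hj, b3 j hj, b4 j hj, gam_zero, mean_one]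
    · rw [← prod_const, ← prod_ite_mem_mul]
      · refine prod_congr rfl fun j _ => ?_
        by_cases hj : j ∈ Z
        · simp [hj]
        · simp [hj, e4, wt_eq_zero, and_assoc]
      · intro j hj; simp [b1 j hj, b2 j hj, b3 j hj, b4 j hj, e4]
  · intro i
    split_ifs
    · exact nu_gr
    · exact gam4_gr (a1 i) (a2 i) (a3 i) (a4 i)
  · intro i hi
    by_cases hj : i ∈ Z
    · simp [hj] at hi
    · simp only [hj, if_false, Nat.add_eq_zero_iff, wt_eq_zero] at hi ⊢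
      simp [hi.1.1.1, hi.1.1.2, hi.1.2, hi.2, gam_zero]
  · intro i hi
    by_cases hj : i ∈ Z
    · simpa [hj] using nu_act
    · simp only [hj, if_false, ne_eq, Nat.add_eq_zero_iff, wt_eq_zero] at hi ⊢
      exact gam4_act (a1 i) (a2 i) (a3 i) (a4 i) (by tauto)
  · intro i j
    by_cases hj : i ∈ Z
    · simpa [hj] using rep_nu j
    · simp only [hj, if_false, ev_mul, pow_add]
      exact (((rep_gam (a1 i) j).mul D.P_pos (rep_gam (a2 i) j)).mul D.P_pos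
        (rep_gam (a3 i) j)).mul D.P_pos (rep_gam (a4 i) j)
  · calc _ ≤ ∑ j, ((if j ∈ Z then 2 ^ D.I else 0)
          + (D.wt (σ₁ j) + D.wt (σ₂ j) + D.wt (σ₃ j) + D.wt (σ₄ j))) :=
          sum_le_sum fun j _ => by split_ifs <;> omega
      _ = Z.card * 2 ^ D.I + (D.wts σ₁ + D.wts σ₂ + D.wts σ₃ + D.wts σ₄) := by
          simp [sum_add_distrib, wts, sum_ite_mem]
      _ ≤ 2 * 2 ^ D.I + (2 ^ D.I + 2 ^ D.I + 2 ^ D.I + 2 ^ D.I) := by gcongr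
      _ = _ := by ring

lemma Conf_mono {U V : Finset ι} (h : U ⊆ V) : D.Conf U ⊆ D.Conf V := fun σ hσ => by
  rw [mem_Conf] at hσ ⊢
  exact ⟨hσ.1, fun j hj => hσ.2 j fun h' => hj (h h')⟩

lemma sum_e4_le (U : Finset ι) :
    ∑ σ₁ ∈ D.Conf U, ∑ σ₂ ∈ D.Conf U, ∑ σ₃ ∈ D.Conf U, ∑ σ₄ ∈ D.Conf U,
      ∏ j, D.e4 (σ₁ j) (σ₂ j) (σ₃ j) (σ₄ j) ≤ Real.exp ((D.I + 1) ^ 4 * D.κ * U.card) := by
  have hκ := D.κ_pos
  rw [Conf, sum4_pi _ _ _ _ (fun _ => D.e4)]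
  have e : Real.exp ((D.I + 1) ^ 4 * D.κ * U.card)
      = ∏ j, if j ∈ U then Real.exp ((D.I + 1) ^ 4 * D.κ) else 1 := by
    rw [prod_ite_mem, univ_inter, prod_const, ← Real.exp_nat_mul, mul_comm]
  rw [e]
  refine prod_le_prod (fun j _ => sum_nonneg fun _ _ => sum_nonneg fun _ _ => sum_nonneg fun _ _ =>
    sum_nonneg fun _ _ => e4_nonneg _ _ _ _) fun j _ => ?_
  unfold lab
  split_ifs
  · refine le_trans ?_ (Real.add_one_le_exp _)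
    calc _ ≤ ∑ a ∈ range (D.I + 1), ∑ b ∈ range (D.I + 1), ∑ c ∈ range (D.I + 1),
          ∑ d ∈ range (D.I + 1), (D.κ + if d = 0 then if c = 0 then if b = 0 then if a = 0 then 1
            else 0 else 0 else 0 else 0) := by
          gcongr with a _ b _ c _ d _
          unfold e4
          split_ifs <;> first | linarith | tauto
      _ = _ := by
          simp [sum_add_distrib]; ring
  · simp [e4]

lemma abs_c4_le {c₁ c₂ c₃ c₄ : (ι → ℕ) → ℝ} (a1 : D.Adm c₁) (a2 : D.Adm c₂) (a3 : D.Adm c₃)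
    (a4 : D.Adm c₄) (σ₁ σ₂ σ₃ σ₄ : ι → ℕ) : |c₁ σ₁ * c₂ σ₂ * c₃ σ₃ * c₄ σ₄| ≤ 1 := by
  simp only [abs_mul]
  have := (a1 σ₁).1; have := (a2 σ₂).1; have := (a3 σ₃).1; have := (a4 σ₄).1
  calc _ ≤ (1 : ℝ) * 1 * 1 * 1 := by gcongr
    _ = 1 := by norm_num

lemma abs_S4_le {U U₁ U₂ U₃ U₄ : Finset ι} (h1 : U₁ ⊆ U) (h2 : U₂ ⊆ U) (h3 : U₃ ⊆ U)
    (h4 : U₄ ⊆ U) {c₁ c₂ c₃ c₄ : (ι → ℕ) → ℝ} (a1 : D.Adm c₁) (a2 : D.Adm c₂) (a3 : D.Adm c₃)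
    (a4 : D.Adm c₄) :
    |D.S4 U₁ U₂ U₃ U₄ c₁ c₂ c₃ c₄| ≤ Real.exp ((D.I + 1) ^ 4 * D.κ * U.card) := by
  refine le_trans (abs_sum4_le (Conf_mono h1) (Conf_mono h2) (Conf_mono h3) (Conf_mono h4) ?_ ?_)
    (sum_e4_le U)
  · intro σ₁ m1 σ₂ m2 σ₃ m3 σ₄ m4
    rw [abs_mul, abs_prod]
    refine (mul_le_of_le_one_left (prod_nonneg fun _ _ => abs_nonneg _)
      (abs_c4_le a1 a2 a3 a4 _ _ _ _)).trans (prod_le_prod (fun _ _ => abs_nonneg _) fun j _ => ?_)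
    exact abs_m4_le ((mem_Conf.1 m1).1 j) ((mem_Conf.1 m2).1 j) ((mem_Conf.1 m3).1 j)
      ((mem_Conf.1 m4).1 j)
  · exact fun _ _ _ _ => prod_nonneg fun _ _ => e4_nonneg _ _ _ _

theorem four {sh : ι → ℕ} {W b X : ℕ} {η : ℝ} (H : D.StarHyp sh W b X η) (hη : 0 ≤ η)
    {Z : Finset ι} (hZ : Z.card ≤ 2) {U U₁ U₂ U₃ U₄ : Finset ι} (hU : Disjoint Z U)
    (h1 : U₁ ⊆ U) (h2 : U₂ ⊆ U) (h3 : U₃ ⊆ U) (h4 : U₄ ⊆ U)
    {c₁ c₂ c₃ c₄ : (ι → ℕ) → ℝ} (a1 : D.Adm c₁) (a2 : D.Adm c₂) (a3 : D.Adm c₃) (a4 : D.Adm c₄) :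
    |EE W b X (fun n => D.nuZ sh Z n
        * (D.Qf sh U₁ c₁ n * D.Qf sh U₂ c₂ n * D.Qf sh U₃ c₃ n * D.Qf sh U₄ c₄ n))
      - D.mean nu ^ Z.card * D.S4 U₁ U₂ U₃ U₄ c₁ c₂ c₃ c₄|
      ≤ η * D.κ ^ Z.card * Real.exp ((D.I + 1) ^ 4 * D.κ * U.card) := by
  have hκ := D.κ_pos
  have e1 : ∀ n, D.nuZ sh Z n
        * (D.Qf sh U₁ c₁ n * D.Qf sh U₂ c₂ n * D.Qf sh U₃ c₃ n * D.Qf sh U₄ c₄ n)
      = ∑ σ₁ ∈ D.Conf U₁, ∑ σ₂ ∈ D.Conf U₂, ∑ σ₃ ∈ D.Conf U₃, ∑ σ₄ ∈ D.Conf U₄,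
        c₁ σ₁ * c₂ σ₂ * c₃ σ₃ * c₄ σ₄ *
        (D.nuZ sh Z n * (D.G sh σ₁ n * D.G sh σ₂ n * D.G sh σ₃ n * D.G sh σ₄ n)) := by
    intro n
    simp only [Qf]
    rw [mul_assoc, mul_assoc, sum_mul, mul_sum]
    refine sum_congr rfl fun _ _ => ?_
    rw [sum_mul, mul_sum, mul_sum]
    refine sum_congr rfl fun _ _ => ?_
    rw [sum_mul, mul_sum, mul_sum, mul_sum]
    refine sum_congr rfl fun _ _ => ?_
    rw [mul_sum, mul_sum, mul_sum, mul_sum]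
    exact sum_congr rfl fun _ _ => by ring
  have hs : U ⊆ Zᶜ := fun j hj => mem_compl.2 fun h => disjoint_left.1 hU h hj
  rw [EE_congr _ _ _ e1]
  simp only [EE_sum, EE_mul_left, S4, mul_sum, ← sum_sub_distrib]
  refine le_trans (abs_sum4_le (Conf_mono h1) (Conf_mono h2) (Conf_mono h3) (Conf_mono h4)
    (g := fun σ₁ σ₂ σ₃ σ₄ => η * D.κ ^ Z.card * ∏ j, D.e4 (σ₁ j) (σ₂ j) (σ₃ j) (σ₄ j)) ?_ ?_) ?_
  · intro σ₁ m1 σ₂ m2 σ₃ m3 σ₄ m4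
    have hn : 0 ≤ η * D.κ ^ Z.card * ∏ j, D.e4 (σ₁ j) (σ₂ j) (σ₃ j) (σ₄ j) :=
      mul_nonneg (by positivity) (prod_nonneg fun _ _ => e4_nonneg _ _ _ _)
    rw [mul_left_comm (D.mean nu ^ Z.card), ← mul_sub, abs_mul]
    by_cases w1 : 2 ^ D.I < D.wts σ₁
    · simpa [(a1 σ₁).2 w1] using hn
    by_cases w2 : 2 ^ D.I < D.wts σ₂
    · simpa [(a2 σ₂).2 w2] using hn
    by_cases w3 : 2 ^ D.I < D.wts σ₃
    · simpa [(a3 σ₃).2 w3] using hn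
    by_cases w4 : 2 ^ D.I < D.wts σ₄
    · simpa [(a4 σ₄).2 w4] using hn
    exact (mul_le_of_le_one_left (abs_nonneg _) (abs_c4_le a1 a2 a3 a4 _ _ _ _)).trans
      (term H hZ (Conf_mono (h1.trans hs) m1) (Conf_mono (h2.trans hs) m2)
        (Conf_mono (h3.trans hs) m3) (Conf_mono (h4.trans hs) m4) (not_lt.1 w1) (not_lt.1 w2)
        (not_lt.1 w3) (not_lt.1 w4))
  · exact fun _ _ _ _ => mul_nonneg (by positivity) (prod_nonneg fun _ _ => e4_nonneg _ _ _ _)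
  · simp only [← mul_sum]
    gcongr
    exact sum_e4_le U

lemma sum_m2 (U : Finset ι) (c : (ι → ℕ) → ℝ) :
    ∑ σ₁ ∈ D.Conf U, ∑ σ₂ ∈ D.Conf U,
      c σ₁ * c σ₂ * ∏ j, D.mean (D.gam (σ₁ j) * D.gam (σ₂ j)) = D.DD U c := by
  refine sum_congr rfl fun σ₁ m1 => ?_
  rw [sum_eq_single_of_mem σ₁ m1, sq]
  · rfl
  · intro σ₂ m2 hne
    obtain ⟨j, hj⟩ := Function.ne_iff.1 hne
    rw [prod_eq_zero (mem_univ j), mul_zero]
    rw [mean_gam_mul ((mem_Conf.1 m1).1 j) ((mem_Conf.1 m2).1 j), if_neg (Ne.symm hj)]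

lemma S4_disj {U U' : Finset ι} (h : Disjoint U U') (c c' : (ι → ℕ) → ℝ) :
    D.S4 U U U' U' c c c' c' = D.DD U c * D.DD U' c' := by
  rw [← sum_m2, ← sum_m2, S4, sum_mul]
  refine sum_congr rfl fun σ₁ m1 => ?_
  rw [sum_mul]
  refine sum_congr rfl fun σ₂ m2 => ?_
  rw [mul_sum]
  refine sum_congr rfl fun σ₃ m3 => ?_
  rw [mul_sum]
  refine sum_congr rfl fun σ₄ m4 => ?_
  have : ∏ j, D.m4 (σ₁ j) (σ₂ j) (σ₃ j) (σ₄ j) = (∏ j, D.mean (D.gam (σ₁ j) * D.gam (σ₂ j)))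
      * ∏ j, D.mean (D.gam (σ₃ j) * D.gam (σ₄ j)) := by
    rw [← prod_mul_distrib]
    refine prod_congr rfl fun j _ => ?_
    by_cases hj : j ∈ U
    · have hj' := disjoint_left.1 h hj
      simp [Blk.m4, (mem_Conf.1 m3).2 j hj', (mem_Conf.1 m4).2 j hj', gam_zero, mean_one]
    · simp [Blk.m4, (mem_Conf.1 m1).2 j hj, (mem_Conf.1 m2).2 j hj, gam_zero, mean_one]
  rw [this]; ring

lemma Conf_empty : D.Conf (∅ : Finset ι) = {0} := by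
  ext σ
  simp only [mem_Conf, notMem_empty, not_false_eq_true, forall_const, mem_singleton]
  constructor
  · exact fun h => funext h.2
  · rintro rfl; simp

/-- the truncation -/
noncomputable def c1 (D : Blk) (σ : ι → ℕ) : ℝ := if D.wts σ ≤ 2 ^ D.I then 1 else 0

lemma adm_c1 : D.Adm (D.c1 : (ι → ℕ) → ℝ) := fun σ => by
  unfold c1
  refine ⟨by split_ifs <;> simp, fun h => if_neg (by omega)⟩

lemma c1_zero : D.c1 (0 : ι → ℕ) = 1 := by simp [c1, wts, wt]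

lemma Qf_empty (sh : ι → ℕ) (n : ℕ) : D.Qf sh ∅ D.c1 n = 1 := by
  simp [Qf, Conf_empty, c1_zero, G, ev_gam_zero]

lemma DD_empty : D.DD (∅ : Finset ι) D.c1 = 1 := by
  simp [DD, Conf_empty, c1_zero, dd_zero]

theorem two {sh : ι → ℕ} {W b X : ℕ} {η : ℝ} (H : D.StarHyp sh W b X η) (hη : 0 ≤ η)
    {Z : Finset ι} (hZ : Z.card ≤ 2) {U U' : Finset ι} (hU : Disjoint Z U) (hU' : Disjoint Z U')
    (h : Disjoint U U') {c c' : (ι → ℕ) → ℝ} (a : D.Adm c) (a' : D.Adm c') {N : ℝ}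
    (hN : (U.card : ℝ) ≤ N) (hN' : (U'.card : ℝ) ≤ N) :
    |EE W b X (fun n => D.nuZ sh Z n * (D.Qf sh U c n ^ 2 * D.Qf sh U' c' n ^ 2))
      - D.mean nu ^ Z.card * (D.DD U c * D.DD U' c')|
      ≤ η * D.κ ^ Z.card * Real.exp ((D.I + 1) ^ 4 * D.κ * (2 * N)) := by
  have hκ := D.κ_pos
  have := four H hη hZ (U := U ∪ U') (disjoint_union_right.2 ⟨hU, hU'⟩) subset_union_left
    subset_union_left subset_union_right subset_union_right a a a' a'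
  rw [S4_disj h] at this
  refine le_trans (le_of_eq ?_) (this.trans ?_)
  · congr 2
    exact EE_congr _ _ _ fun n => by ring
  · gcongr
    have : ((U ∪ U').card : ℝ) ≤ U.card + U'.card := by exact_mod_cast card_union_le U U'
    linarith

theorem fourth {sh : ι → ℕ} {W b X : ℕ} {η : ℝ} (H : D.StarHyp sh W b X η) (hη : 0 ≤ η)
    {Z : Finset ι} (hZ : Z.card ≤ 2) {U : Finset ι} (hU : Disjoint Z U)
    {c : (ι → ℕ) → ℝ} (a : D.Adm c) {N : ℝ} (hN : (U.card : ℝ) ≤ N) :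
    EE W b X (fun n => D.nuZ sh Z n * (D.Qf sh U c n ^ 2 * D.Qf sh U c n ^ 2))
      ≤ (D.mean nu ^ Z.card + η * D.κ ^ Z.card) * Real.exp ((D.I + 1) ^ 4 * D.κ * (2 * N)) := by
  have hκ := D.κ_pos
  have h1 := four H hη hZ hU subset_rfl subset_rfl subset_rfl subset_rfl a a a a
  have h2 := abs_S4_le (U := U) subset_rfl subset_rfl subset_rfl subset_rfl a a a a
  have h3 : Real.exp ((D.I + 1) ^ 4 * D.κ * U.card) ≤ Real.exp ((D.I + 1) ^ 4 * D.κ * (2 * N)) := by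
    gcongr
    have : (0 : ℝ) ≤ U.card := by positivity
    linarith
  have h4 := mean_nu_nonneg (D := D)
  have h5 : D.mean nu ^ Z.card * D.S4 U U U U c c c c
      ≤ D.mean nu ^ Z.card * Real.exp ((D.I + 1) ^ 4 * D.κ * (2 * N)) := by
    gcongr
    exact (le_abs_self _).trans (h2.trans h3)
  have h6 : η * D.κ ^ Z.card * Real.exp ((D.I + 1) ^ 4 * D.κ * U.card)
      ≤ η * D.κ ^ Z.card * Real.exp ((D.I + 1) ^ 4 * D.κ * (2 * N)) := by gcongr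
  rw [EE_congr _ _ _ (G := fun n => D.nuZ sh Z n
        * (D.Qf sh U c n * D.Qf sh U c n * D.Qf sh U c n * D.Qf sh U c n)) fun n => by ring]
  have := (abs_le.1 h1).2
  linarith

end Blk

end Crest.Agent.H0021
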