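import Crest.Agent.H0021.Build

/-! Few primes are followed by primes in every window, or by too many primes. -/

open Finset

namespace Crest.Agent.H0021

def BadP (T h L n : ℕ) : Prop :=
  (∀ t < T, ∃ j, t * h < j ∧ j ≤ (t + 1) * h ∧ (n + j).Prime) ∨
    L ≤ ((Ioc 0 (T * h)).filter fun j => (n + j).Prime).card

def JJ (W b h H t : ℕ) : Finset (Fin (H + 1)) :=
  univ.filter fun j => t * h < j.1 ∧ j.1 ≤ (t + 1) * h ∧ W.Coprime (b + j.1)

lemma card_JJ {W : ℕ} (hW : 0 < W) (b h H t : ℕ) :
    (JJ W b h H t).card ≤ W.totient * (h / W + 1) := by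
  refine le_trans ?_ (Nat.Ico_filter_coprime_le (b + t * h + 1) h hW.ne')
  refine card_le_card_of_injOn (fun j => b + j.1) (fun j hj => ?_) fun j _ j' _ e => ?_
  · have := (mem_filter.1 (mem_coe.1 hj)).2
    rw [add_mul] at this
    exact mem_coe.2 (mem_filter.2 ⟨mem_Ico.2 (by simp only; omega), this.2.2⟩)
  · exact Fin.ext (by simpa using e)

lemma bad_of_badP {y I : ℕ} {E : ℝ} (p : Par y I E) {T h L n : ℕ} (hh : 0 < h) (hn : n.Prime)
    (hE : Real.exp E < n) (hb : BadP T h L n) :
    (mkBlk p).Bad (Fin.val : Fin (T * h + 1) → ℕ) 0 T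
      (JJ (primorial y) (n % primorial y) h (T * h)) L n := by
  classical
  have hy : (y : ℝ) ≤ Real.exp E := by
    have := zeta_anti (by linarith [p.hE] : 0 ≤ E) (Nat.zero_le I)
    have h2 := p.ysmall
    simp only [zeta, pow_zero, div_one] at this h2
    linarith
  have key : ∀ j, (n + j).Prime →
      (mkBlk p).Rough (n + j) ∧ (primorial y).Coprime (n % primorial y + j) := by
    intro j hj
    have h1 : Real.exp E < (n + j : ℕ) := by
      push_cast; linarith [Nat.cast_nonneg (α := ℝ) j]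
    refine ⟨rough_of_prime p hj h1, ?_⟩
    have h2 : (primorial y).Coprime (n + j) := by
      rw [Nat.coprime_comm, hj.coprime_iff_not_dvd, hj.dvd_primorial_iff, not_le]
      exact_mod_cast hy.trans_lt h1
    have h3 : n % primorial y + j ≡ n + j [MOD primorial y] := (Nat.mod_modEq _ _).add_right j
    rw [Nat.Coprime, Nat.gcd_comm, h3.gcd_eq, Nat.gcd_comm]
    exact h2
  refine ⟨(key 0 hn).1, hb.imp (fun hb t ht => ?_) fun hb => hb.trans ?_⟩
  · obtain ⟨j, h1, h2, h3⟩ := hb t ht
    have : (t + 1) * h ≤ T * h := Nat.mul_le_mul_right _ ht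
    exact ⟨⟨j, by omega⟩, mem_filter.2 ⟨mem_univ _, h1, h2, (key j h3).2⟩, (key j h3).1⟩
  · refine le_trans (card_le_card fun j hj => ?_)
      ((card_image_le (f := (Fin.val : Fin (T * h + 1) → ℕ))).trans card_biUnion_le)
    obtain ⟨h1, h2⟩ := mem_filter.1 hj
    obtain ⟨h0, h1⟩ := mem_Ioc.1 h1
    have a1 := Nat.div_add_mod (j - 1) h
    have a2 := Nat.mod_lt (j - 1) hh
    refine mem_image.2 ⟨⟨j, by omega⟩, mem_biUnion.2 ⟨(j - 1) / h, mem_range.2 ?_,
      mem_filter.2 ⟨mem_filter.2 ⟨mem_univ _, ?_, ?_, (key j h2).2⟩, (key j h2).1⟩⟩, rfl⟩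
    · rw [Nat.div_lt_iff_lt_mul hh]; omega
    · rw [mul_comm]; simp only; omega
    · simp only; rw [add_mul, mul_comm]; omega

open Classical in
theorem count_bad {c ε : ℝ} (hc : 0 < c) (hε : 0 < ε) :
    ∃ I T L : ℕ, ∃ η : ℝ, 1 ≤ I ∧ 0 < T ∧ 0 < L ∧ 0 < η ∧
      ∀ (y h X : ℕ) (E : ℝ), Par y I E → 0 < X → primorial y ≤ h → 2 * h ≤ c * E →
      Real.exp (Cb I * (1 / y + (6 * 2 ^ I : ℕ) ^ 2 * (Real.log (T * h : ℕ) / Real.log y) / y)) - 1
        ≤ η / 2 →
      (primorial y : ℝ) / X * Real.exp (96 * E) * E ^ (6 * 2 ^ I) ≤ η / 2 →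
      (((range X).filter fun n : ℕ => n.Prime ∧ Real.exp E < n ∧ BadP T h L n).card : ℝ)
        ≤ ε * X / E := by
  have hl4 : 0 < Real.log 4 := Real.log_pos (by norm_num)
  obtain ⟨I, T, L, η, hI, hT, hL, hη, H⟩ :=
    exists_const 12 (lam := 1 / (16 * Real.log 4)) (by positivity) hc hε
  refine ⟨I, T, L, η, hI, hT, hL, hη, fun y h X E p hX hW hcE h1 h2 => ?_⟩
  set W := primorial y with hWdef
  have hW0 : 0 < W := primorial_pos y
  have hh : 0 < h := hW0.trans_le hW
  have hE := p.hE
  have hρ : 0 < P0 (PI 0 y) := P0_pos fun p hp => (mem_PI.1 hp).2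
  have hW' : (0 : ℝ) < W := by positivity
  have hX' : (0 : ℝ) < X := by positivity
  have eδ : (mkBlk p).δ = 1 / (P0 (PI 0 y) * E) := rfl
  have key : ∀ b, ∑ n ∈ range X, ind W (W - b) n * (if (mkBlk p).Bad
      (Fin.val : Fin (T * h + 1) → ℕ) 0 T (JJ W b h (T * h)) L n then (1 : ℝ) else 0)
      ≤ X / W * (ε * (mkBlk p).δ) := by
    intro b
    have := H (mkBlk p) rfl rfl rfl (T * h + 1) Fin.val W (W - b) X 0 (JJ W b h (T * h))
      (W.totient * (h / W + 1) : ℕ) (starHyp p hX _ h1 h2) ?_ ?_ ?_ ?_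
    · unfold EE at this
      refine le_of_mul_le_mul_left (this.trans (le_of_eq ?_)) (by positivity : (0 : ℝ) < W / X)
      field_simp
    · intro t _ t' _ hne
      refine disjoint_left.2 fun j a1 a2 => ?_
      have a1 := (mem_filter.1 a1).2
      have a2 := (mem_filter.1 a2).2
      rcases Nat.lt_or_gt_of_ne hne with h' | h'
      · have : (t + 1) * h ≤ t' * h := Nat.mul_le_mul_right _ h'
        omega
      · have : (t' + 1) * h ≤ t * h := Nat.mul_le_mul_right _ h'
        omega
    · intro t ht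
      have := (mem_filter.1 ht).2.1
      simp at this
    · intro t; exact_mod_cast card_JJ hW0 b h (T * h) t
    · have a1 : ((h / W : ℕ) : ℝ) ≤ h / W := Nat.cast_div_le
      have a2 : (1 : ℝ) ≤ h / W := by rw [one_le_div hW']; exact_mod_cast hW
      rw [eδ]
      push_cast
      rw [totient_primorial, ← hWdef]
      calc _ ≤ W * P0 (PI 0 y) * (h / W + h / W) * (1 / (P0 (PI 0 y) * E)) := by gcongr
        _ = 2 * h / E := by field_simp; ring
        _ ≤ c := by rwa [div_le_iff₀ (by linarith)]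
  calc _ ≤ ∑ n ∈ range X, ∑ b ∈ (range W).filter (fun b => W.Coprime b),
        ind W (W - b) n * (if (mkBlk p).Bad (Fin.val : Fin (T * h + 1) → ℕ) 0 T
          (JJ W b h (T * h)) L n then (1 : ℝ) else 0) := by
        rw [card_filter]
        push_cast
        refine sum_le_sum fun n _ => ?_
        have p0 : ∀ b, 0 ≤ ind W (W - b) n * (if (mkBlk p).Bad (Fin.val : Fin (T * h + 1) → ℕ) 0 T
          (JJ W b h (T * h)) L n then (1 : ℝ) else 0) := fun b =>
          mul_nonneg (ind_nonneg _ _ _) (by split_ifs <;> norm_num)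
        split_ifs with hn
        · obtain ⟨n1, n2, n3⟩ := hn
          have a1 := Nat.mod_lt n hW0
          have hy : (y : ℝ) ≤ Real.exp E := by
            have := zeta_anti (by linarith [p.hE] : 0 ≤ E) (Nat.zero_le I)
            have h2 := p.ysmall
            simp only [zeta, pow_zero, div_one] at this h2
            linarith
          have a2 : W.Coprime (n % W) := by
            rw [Nat.Coprime, Nat.gcd_comm, (Nat.mod_modEq n W).gcd_eq]
            refine n1.coprime_iff_not_dvd.2 ?_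
            rw [n1.dvd_primorial_iff, not_le]
            exact_mod_cast hy.trans_lt n2
          refine le_trans ?_ (single_le_sum (fun b _ => p0 b)
            (mem_filter.2 ⟨mem_range.2 a1, a2⟩))
          rw [if_pos (bad_of_badP p hh n1 n2 n3), ind, if_pos, mul_one]
          have := Nat.div_add_mod n W
          exact ⟨n / W + 1, by rw [mul_add]; omega⟩
        · exact sum_nonneg fun b _ => p0 b
    _ ≤ ∑ _b ∈ (range W).filter (fun b => W.Coprime b), X / W * (ε * (mkBlk p).δ) := by
        rw [sum_comm]; exact sum_le_sum fun b _ => key b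
    _ = _ := by
        rw [sum_const, nsmul_eq_mul, ← Nat.totient_eq_card_coprime, totient_primorial, ← hWdef, eδ]
        field_simp

end Crest.Agent.H0021
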