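import Crest.Agent.H0021.Star

/-! The local functions used by the weights. -/

open Finset

namespace Crest.Agent.H0021

namespace Blk

variable (D : Blk)

/-- the centred local functions, one for each scale -/
noncomputable def gam : ℕ → ℕ → ℕ → ℝ
  | 0 => 1
  | r + 1 => fun l w => if l < r then 1 else
      if l = r then ((w : ℝ) / (∑ q ∈ D.B r, (1 : ℝ) / q) - 1) / D.I else sv (l - r) w

/-- the majorant of rough numbers -/
noncomputable def nu : ℕ → ℕ → ℝ := fun l w => sv (l + 1) w ^ 2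

def wt : ℕ → ℕ
  | 0 => 0
  | r + 1 => 2 ^ (D.I - 1 - r)

noncomputable def Y : ℝ := Real.exp (8 * D.E / 2 ^ (D.I - 1))

noncomputable def dd (a : ℕ) : ℝ := D.mean (D.gam a * D.gam a)

variable {D}

lemma one_le_Y : 1 ≤ D.Y := Real.one_le_exp (by have := D.E_nonneg; positivity)

lemma GrG.mul {R R' b b' : ℝ} {φ ψ : ℕ → ℕ → ℝ} (h1 : D.GrG R b φ) (h2 : D.GrG R' b' ψ) :
    D.GrG (R * R') (b * b') (φ * ψ) := by
  intro l w
  have a1 := h1 l w
  have a2 := h2 l w
  simp only [Pi.mul_apply, abs_mul]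
  refine (mul_le_mul a1 a2 (abs_nonneg _) ((abs_nonneg _).trans a1)).trans (le_of_eq ?_)
  rw [mul_pow]; split_ifs <;> ring

lemma gam_gr {a : ℕ} (ha : a ≤ D.I) : D.GrG 3 D.β (D.gam a) := by
  intro l w
  have h1 : (1 : ℝ) ≤ 3 ^ w := one_le_pow₀ (by norm_num)
  have h2 : (1 : ℝ) ≤ if l < D.I then D.β else 1 := by
    split_ifs
    · exact D.one_le_β
    · exact le_rfl
  have h3 : (3 : ℝ) ^ w ≤ (if l < D.I then D.β else 1) * 3 ^ w :=
    le_mul_of_one_le_left (by positivity) h2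
  rcases a with _ | r
  · simp only [gam, Pi.one_apply, abs_one]; linarith
  · simp only [gam]
    split_ifs with c1 c2 c3 c4 c5
    · rw [if_pos c2] at h3; rw [abs_one]; linarith
    · rw [if_neg c2] at h3; rw [abs_one]; linarith
    · have hl := D.lam_pos
      have hs := D.sumge r (by omega)
      have hI : (1 : ℝ) ≤ D.I := by exact_mod_cast D.hI
      have hw : (w : ℝ) ≤ 3 ^ w := by
        exact_mod_cast (Nat.lt_pow_self (by norm_num : 1 < 3)).le
      rw [abs_div, abs_of_nonneg (by positivity : (0 : ℝ) ≤ D.I)]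
      refine (div_le_self (abs_nonneg _) hI).trans ((abs_sub _ _).trans ?_)
      rw [abs_one, abs_of_nonneg (div_nonneg (by positivity) (by linarith))]
      have : (w : ℝ) / (∑ q ∈ D.B r, (1 : ℝ) / q) ≤ 3 ^ w / D.lam := by gcongr
      unfold β
      rw [add_mul, one_div_mul_eq_div]; linarith
    · omega
    · rw [if_pos c5] at h3; exact (abs_sv_le _ _).trans h3
    · rw [if_neg c5] at h3; exact (abs_sv_le _ _).trans h3

lemma gam4_gr {a b c d : ℕ} (ha : a ≤ D.I) (hb : b ≤ D.I) (hc : c ≤ D.I) (hd : d ≤ D.I) :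
    D.GrG 81 (D.β ^ 4) (D.gam a * D.gam b * D.gam c * D.gam d) := by
  have := (((gam_gr ha).mul (gam_gr hb)).mul (gam_gr hc)).mul (gam_gr hd)
  convert this using 1
  · norm_num
  · ring

lemma abs_sv_sq_le (k w : ℕ) : |sv k w ^ 2| ≤ 81 ^ w := by
  rw [abs_pow]
  calc |sv k w| ^ 2 ≤ (3 ^ w) ^ 2 := by gcongr; exact abs_sv_le _ _
    _ = 9 ^ w := by rw [← pow_mul, mul_comm, pow_mul]; norm_num
    _ ≤ 81 ^ w := by gcongr; norm_num

lemma nu_gr : D.GrG 81 (D.β ^ 4) nu := by
  intro l w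
  refine (abs_sv_sq_le _ _).trans (le_mul_of_one_le_left (by positivity) ?_)
  split_ifs
  · exact one_le_pow₀ D.one_le_β
  · exact le_rfl

lemma Act.mul_right {φ : ℕ → ℕ → ℝ} (h : D.Act φ) (ψ : ℕ → ℕ → ℝ) : D.Act (φ * ψ) :=
  fun l hl w h1 h2 => by simp [h l hl w h1 h2]

lemma Act.mul_left {φ : ℕ → ℕ → ℝ} (h : D.Act φ) (ψ : ℕ → ℕ → ℝ) : D.Act (ψ * φ) :=
  fun l hl w h1 h2 => by simp [h l hl w h1 h2]

lemma gam_act {a : ℕ} (ha : a ≤ D.I) (h0 : a ≠ 0) : D.Act (D.gam a) := by
  rcases a with _ | r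
  · exact absurd rfl h0
  intro l hl w h1 h2
  simp only [gam]
  rw [if_neg (by omega), if_neg (by omega)]
  exact sv_eq_zero h1 (by omega)

lemma nu_act : D.Act nu := by
  intro l hl w h1 h2
  have := D.hI
  simp only [nu]
  rw [sv_eq_zero h1 (by omega)]; simp

lemma wt_eq_zero {a : ℕ} : D.wt a = 0 ↔ a = 0 := by
  rcases a with _ | r <;> simp [wt]

lemma wt_le {a : ℕ} : D.wt a ≤ 2 ^ (D.I - 1) := by
  rcases a with _ | r
  · simp [wt]
  · exact Nat.pow_le_pow_right (by norm_num) (by omega)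

lemma ev_mul (φ ψ : ℕ → ℕ → ℝ) (n : ℕ) : D.ev (φ * ψ) n = D.ev φ n * D.ev ψ n := by
  simp [ev, prod_mul_distrib]

lemma rep_ev (φ : ℕ → ℕ → ℝ) (r j : ℕ) (h1 : ∀ l < r, φ l = 1)
    (h2 : ∀ l, r ≤ l → l < D.m →
      Rep D.P (fun n => φ l (om (D.B l) (n + j))) (Real.exp (D.E / 2 ^ l) ^ (2 * (l - r + 1)))) :
    Rep D.P (fun n => D.ev φ (n + j)) (Real.exp (8 * D.E / 2 ^ r)) := by
  have := Rep.prod D.P_pos (range D.m) (F := fun l n => φ l (om (D.B l) (n + j)))
    (N := fun l => if r ≤ l then Real.exp (D.E / 2 ^ l) ^ (2 * (l - r + 1)) else 1) fun l hl => by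
      split_ifs with h
      · exact h2 l h (mem_range.1 hl)
      · simpa [h1 l (not_le.1 h)] using Rep.const D.P 1
  refine this.mono ?_
  have hE := D.E_nonneg
  rw [← prod_filter]
  have e : (range D.m).filter (fun l => r ≤ l) = Ico r D.m := by
    ext l; simp [and_comm]
  rw [e, prod_Ico_eq_prod_range]
  simp only [← Real.exp_nat_mul, ← Real.exp_sum, Nat.add_sub_cancel_left]
  apply Real.exp_le_exp.2
  calc _ = 2 * D.E / 2 ^ r * ∑ i ∈ range (D.m - r), ((i : ℝ) + 1) / 2 ^ i := by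
        rw [mul_sum]
        refine sum_congr rfl fun i _ => ?_
        push_cast; rw [pow_add]; field_simp
    _ ≤ 2 * D.E / 2 ^ r * 4 := by gcongr; exact sum_mul_half_pow_le _
    _ = _ := by ring

lemma rep_sv' {l : ℕ} (hl : l < D.m) (j k : ℕ) :
    Rep D.P (fun n => sv k (om (D.B l) (n + j))) (Real.exp (D.E / 2 ^ l) ^ k) :=
  (rep_sv D.P_pos (D.dvd_P hl) j k).mono (by gcongr; exact D.card_le l)

lemma rep_gam {a : ℕ} (ha : a ≤ D.I) (j : ℕ) :
    Rep D.P (fun n => D.ev (D.gam a) (n + j)) (D.Y ^ D.wt a) := by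
  have hE := D.E_nonneg
  rcases a with _ | r
  · simpa [gam, wt, ev_one] using Rep.const D.P 1
  have h1 := rep_ev (D := D) (D.gam (r + 1)) r j (fun l hl => by funext w; simp [gam, hl]) ?_
  · refine h1.mono (le_of_eq ?_)
    rw [Y, ← Real.exp_nat_mul, wt]
    congr 1
    have : D.I - 1 = (D.I - 1 - r) + r := by omega
    conv_rhs => rw [this]
    rw [Nat.add_sub_cancel]
    push_cast; rw [pow_add]; field_simp
  · intro l hl hlm
    have hz : 1 ≤ Real.exp (D.E / 2 ^ l) := Real.one_le_exp (by positivity)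
    by_cases hlr : l = r
    · subst hlr
      have hl := D.lam_pos
      have hs := D.sumge l (by omega)
      have hI : (1 : ℝ) ≤ D.I := by exact_mod_cast D.hI
      refine ((rep_affine D.P_pos (D.dvd_P hlm) j (1 / (∑ q ∈ D.B l, (1 : ℝ) / q) / D.I)
        (-1 / D.I)).congr fun n => ?_).mono ?_
      · simp only [gam, lt_irrefl, if_false, if_true]; ring
      · have a1 : |1 / (∑ q ∈ D.B l, (1 : ℝ) / q) / D.I| ≤ 1 + 1 / D.lam := by
          rw [abs_of_nonneg (div_nonneg (div_nonneg zero_le_one (by linarith)) (by positivity))]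
          refine (div_le_self (div_nonneg zero_le_one (by linarith)) hI).trans ?_
          have : 1 / (∑ q ∈ D.B l, (1 : ℝ) / q) ≤ 1 / D.lam := by gcongr
          linarith
        have a2 : |(-1 : ℝ) / D.I| ≤ 1 + 1 / D.lam := by
          rw [abs_div, abs_neg, abs_one, abs_of_nonneg (by positivity : (0 : ℝ) ≤ D.I)]
          have : 1 / (D.I : ℝ) ≤ 1 := by rw [div_le_one (by positivity)]; exact hI
          have : 0 ≤ 1 / D.lam := by positivity
          linarith
        have a3 : 1 + 1 / D.lam ≤ Real.exp (D.E / 2 ^ l) := by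
          refine D.lam_inv.trans (Real.exp_le_exp.2 ?_)
          gcongr
          · norm_num
          · omega
        have a4 := D.card_le l
        calc _ ≤ (1 + 1 / D.lam) * (D.B l).card + (1 + 1 / D.lam) := by gcongr
          _ = (1 + 1 / D.lam) * ((D.B l).card + 1) := by ring
          _ ≤ Real.exp (D.E / 2 ^ l) * Real.exp (D.E / 2 ^ l) := by gcongr
          _ = _ := by simp [sq]
    · refine ((rep_sv' hlm j (l - r)).congr fun n => ?_).mono (pow_le_pow_right₀ hz (by omega))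
      simp only [gam]; rw [if_neg (by omega), if_neg hlr]

lemma rep_nu (j : ℕ) : Rep D.P (fun n => D.ev nu (n + j)) (D.Y ^ 2 ^ D.I) := by
  have hE := D.E_nonneg
  have h1 := rep_ev (D := D) nu 0 j (fun l hl => absurd hl (Nat.not_lt_zero _)) ?_
  · refine h1.mono ?_
    rw [Y, ← Real.exp_nat_mul]
    apply Real.exp_le_exp.2
    have : (2 : ℝ) ^ (D.I - 1) ≤ 2 ^ D.I := pow_le_pow_right₀ (by norm_num) (by omega)
    push_cast
    rw [pow_zero, div_one, mul_div_assoc', le_div_iff₀ (by positivity)]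
    nlinarith
  · intro l _ hlm
    refine (((rep_sv' hlm j (l + 1)).mul D.P_pos (rep_sv' hlm j (l + 1))).congr fun n => ?_).mono
      (le_of_eq ?_)
    · simp [nu, sq]
    · rw [← pow_add]; congr 1; omega

/-- `n` has no prime factor in the blocks -/
def Rough (D : Blk) (n : ℕ) : Prop := ∀ l < D.m, om (D.B l) n = 0

lemma ev_nu_rough {n : ℕ} (h : D.Rough n) : D.ev nu n = 1 :=
  prod_eq_one fun l hl => by simp [nu, h l (mem_range.1 hl), sv_zero]

lemma ev_nu_nonneg (n : ℕ) : 0 ≤ D.ev nu n := prod_nonneg fun _ _ => sq_nonneg _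

lemma ev_gam_zero (n : ℕ) : D.ev (D.gam 0) n = 1 := ev_one n

lemma ev_gam_rough {n : ℕ} (h : D.Rough n) {r : ℕ} (hr : r < D.I) :
    D.ev (D.gam (r + 1)) n = -1 / D.I := by
  have := D.hIm
  rw [ev, prod_eq_single r]
  · simp [gam, h r (by omega)]
  · intro l hl hne
    simp [gam, h l (mem_range.1 hl), sv_zero, hne]
  · intro h; exact absurd (mem_range.2 (by omega)) h

lemma mB_psi {r : ℕ} (hr : r < D.I) : mB (D.B r) (D.gam (r + 1) r) = 0 := by
  have hs : 0 < ∑ q ∈ D.B r, (1 : ℝ) / q := D.lam_pos.trans_le (D.sumge r hr)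
  rw [mB_congr _ (ψ := fun w => (1 / (∑ q ∈ D.B r, (1 : ℝ) / q) / D.I) * (w : ℝ) + (-1 / D.I)),
    mB_add, mB_mul_left, mB_id (D.prime r), mB_const (D.prime r)]
  · field_simp; ring
  · intro w; simp only [gam, lt_irrefl, if_false, if_true]; ring

lemma mean_gam_mul_lt {r b : ℕ} (hr : r < D.I) (hb : b = 0 ∨ r + 1 < b) :
    D.mean (D.gam (r + 1) * D.gam b) = 0 := by
  have := D.hIm
  refine prod_eq_zero (i := r) (mem_range.2 (by omega)) ?_
  rw [← mB_psi hr]
  refine mB_congr _ fun w => ?_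
  have : D.gam b r w = 1 := by
    rcases b with _ | r'
    · rfl
    · simp only [gam]; rw [if_pos (by omega)]
  simp [this]

lemma mean_gam_mul {a b : ℕ} (ha : a ≤ D.I) (hb : b ≤ D.I) :
    D.mean (D.gam a * D.gam b) = if a = b then D.dd a else 0 := by
  split_ifs with h
  · subst h; rfl
  · rcases a with _ | r <;> rcases b with _ | r'
    · exact absurd rfl h
    · rw [mul_comm]; exact mean_gam_mul_lt (by omega) (Or.inl rfl)
    · exact mean_gam_mul_lt (by omega) (Or.inl rfl)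
    · rcases Nat.lt_or_gt_of_ne h with h' | h'
      · exact mean_gam_mul_lt (by omega) (Or.inr h')
      · rw [mul_comm]; exact mean_gam_mul_lt (by omega) (Or.inr h')

lemma dd_zero : D.dd 0 = 1 := by simp [dd, gam, mean_one]

lemma dd_nonneg (a : ℕ) : 0 ≤ D.dd a := by
  unfold dd mean
  exact prod_nonneg fun l _ => mB_nonneg _ fun w => mul_self_nonneg (D.gam a l w)

lemma mean_nu_nonneg : 0 ≤ D.mean nu := prod_nonneg fun _ _ => mB_nonneg _ fun _ => sq_nonneg _

lemma mB_sv_sq_le (l k : ℕ) :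
    mB (D.B l) (fun w => sv k w ^ 2) ≤ P0 (D.B l) * (1 + D.K / 2 ^ k) :=
  (le_abs_self _).trans (sieve_moment (D.prime l) (D.sumle l) (abs_sv_sq_le k)
    fun w h1 h2 => by rw [sv_eq_zero h1 h2]; simp)

lemma mean_nu_le : D.mean nu ≤ Real.exp D.K * D.δ := by
  have := D.prod_sieve_le (Nat.zero_le _)
  rw [pow_zero, mul_one] at this
  refine le_trans ?_ this
  rw [mean, range_eq_Ico]
  exact prod_le_prod (fun _ _ => mB_nonneg _ fun _ => sq_nonneg _) fun l _ => mB_sv_sq_le l (l + 1)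

lemma dd_le {r : ℕ} (hr : r < D.I) :
    D.dd (r + 1) ≤ 1 / (D.lam * D.I ^ 2) * (Real.exp D.K * 2 ^ (r + 1) * D.δ) := by
  have hm := D.hIm
  have hl := D.lam_pos
  have hs := D.sumge r hr
  have hI : (1 : ℝ) ≤ D.I := by exact_mod_cast D.hI
  rw [dd, mean, range_eq_Ico, ← prod_Ico_consecutive _ (Nat.zero_le (r + 1)) (by omega : r + 1 ≤ D.m),
    prod_Ico_succ_top (Nat.zero_le r), prod_eq_one, one_mul]
  · refine mul_le_mul ?_ (le_trans ?_ (D.prod_sieve_le (r := r + 1) hr))
      (prod_nonneg fun _ _ => mB_nonneg _ fun _ => mul_self_nonneg _) (by positivity)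
    · set s := ∑ q ∈ D.B r, (1 : ℝ) / q with hsdef
      have hs0 : 0 < s := hl.trans_le hs
      rw [mB_congr _ (ψ := fun w => (1 / (s * D.I) ^ 2) * (w : ℝ) ^ 2
          + ((-2 / (s * D.I ^ 2)) * (w : ℝ) + (1 / D.I ^ 2))),
        mB_add, mB_add, mB_mul_left, mB_mul_left, mB_id (D.prime r), mB_const (D.prime r), ← hsdef]
      · have := mB_sq (D.prime r)
        rw [← hsdef] at this
        calc _ ≤ 1 / (s * D.I) ^ 2 * (s ^ 2 + s) + (-2 / (s * D.I ^ 2) * s + 1 / D.I ^ 2) := by gcongr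
          _ = 1 / (s * D.I ^ 2) := by field_simp; ring
          _ ≤ _ := by gcongr
      · intro w
        simp only [gam, lt_irrefl, if_false, if_true, Pi.mul_apply, ← hsdef]
        field_simp; ring
    · refine prod_le_prod (fun _ _ => mB_nonneg _ fun _ => mul_self_nonneg _) fun l hl => ?_
      have hl := (mem_Ico.1 hl).1
      rw [show l - (r + 1) + 1 = l - r by omega]
      refine le_trans (le_of_eq (mB_congr _ fun w => ?_)) (mB_sv_sq_le l (l - r))
      simp only [gam, Pi.mul_apply]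
      rw [if_neg (by omega), if_neg (by omega), sq]
  · intro l hl
    have hl := (mem_Ico.1 hl).2
    rw [← mB_const (D.prime l) 1]
    exact mB_congr _ fun w => by simp [gam, hl]

lemma sum_wt_dd_le : ∑ a ∈ range (D.I + 1), (D.wt a : ℝ) * D.dd a
    ≤ 2 ^ D.I * (Real.exp D.K / (D.lam * D.I)) * D.δ := by
  have hl := D.lam_pos
  have hI : (1 : ℝ) ≤ D.I := by exact_mod_cast D.hI
  rw [sum_range_succ']
  simp only [wt, Nat.cast_zero, zero_mul, add_zero]
  calc _ ≤ ∑ _r ∈ range D.I, 2 ^ D.I * (Real.exp D.K / (D.lam * D.I ^ 2)) * D.δ := by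
        refine sum_le_sum fun r hr => ?_
        have hr := mem_range.1 hr
        refine (mul_le_mul_of_nonneg_left (dd_le hr) (by positivity)).trans (le_of_eq ?_)
        have : D.I = (D.I - 1 - r) + (r + 1) := by omega
        have e : (2 : ℝ) ^ D.I = 2 ^ (D.I - 1 - r) * 2 ^ (r + 1) := by rw [← pow_add, ← this]
        rw [e]; push_cast; ring
    _ = _ := by
        rw [sum_const, card_range, nsmul_eq_mul]; field_simp

end Blk

end Crest.Agent.H0021
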