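import Crest.Agent.H0021.Tail

/-! The second moment argument. -/

open Finset

set_option linter.unusedSectionVars false

namespace Crest.Agent.H0021

namespace Blk

variable {ι : Type*} [Fintype ι] [DecidableEq ι] {D : Blk}

/-- the data of the windows -/
structure Win (D : Blk) (o : ι) (T : ℕ) (J : ℕ → Finset ι) (N : ℝ) : Prop where
  disj : ∀ t < T, ∀ t' < T, t ≠ t' → Disjoint (J t) (J t')
  not_mem : ∀ t, o ∉ J t
  card_le : ∀ t, ((J t).card : ℝ) ≤ N
  small : N * D.δ * (Real.exp D.K / (D.lam * D.I)) ≤ 1 / 4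

noncomputable def MM (D : Blk) (N : ℝ) : ℝ := Real.exp ((D.I + 1) ^ 4 * D.κ * (2 * N))

noncomputable def Rt (D : Blk) (sh : ι → ℕ) (U : Finset ι) (n : ℕ) : ℝ :=
  D.Qf sh U D.c1 n ^ 2 / D.DD U D.c1 - 1

variable {sh : ι → ℕ} {W b X : ℕ} {η : ℝ} {o : ι} {T : ℕ} {J : ℕ → Finset ι} {N : ℝ}

lemma nuZ_nonneg (Z : Finset ι) (n : ℕ) : 0 ≤ D.nuZ sh Z n :=
  prod_nonneg fun _ _ => ev_nu_nonneg _

lemma EE_RR (H : D.StarHyp sh W b X η) (hη : 0 ≤ η) (w : D.Win o T J N) {t t' : ℕ} (ht : t < T)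
    (ht' : t' < T) :
    EE W b X (fun n => D.nuZ sh {o} n * (D.Rt sh (J t) n * D.Rt sh (J t') n))
      ≤ (if t = t' then D.mean nu * D.MM N else 0) + 4 * (η * D.κ * D.MM N) := by
  have hN : ((∅ : Finset ι).card : ℝ) ≤ N := by simpa using (Nat.cast_nonneg _).trans (w.card_le 0)
  have hZ : ({o} : Finset ι).card ≤ 2 := by simp
  have hd : ∀ t, Disjoint {o} (J t) := fun t => disjoint_singleton_left.2 (w.not_mem t)
  have hv := mean_nu_nonneg (D := D)
  have hκ := D.κ_pos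
  have hM : 0 < D.MM N := Real.exp_pos _
  have he : 0 ≤ η * D.κ * D.MM N := by positivity
  have h1 : ∀ t, D.mean nu - η * D.κ * D.MM N
      ≤ 1 / D.DD (J t) D.c1 * EE W b X (fun n => D.nuZ sh {o} n * D.Qf sh (J t) D.c1 n ^ 2) := by
    intro t
    have := two H hη hZ (hd t) (disjoint_empty_right _) (disjoint_empty_right _) adm_c1 adm_c1
      (w.card_le t) hN
    simp only [Qf_empty, DD_empty, one_pow, mul_one, card_singleton, pow_one] at this
    have h2 := one_le_DD (D := D) (J t)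
    rw [one_div_mul_eq_div, le_div_iff₀ (by linarith)]
    have := (abs_le.1 this).1
    unfold MM at he ⊢
    nlinarith
  have h2 : EE W b X (D.nuZ sh {o}) ≤ D.mean nu + η * D.κ * D.MM N := by
    have := two H hη hZ (disjoint_empty_right _) (disjoint_empty_right _) (disjoint_empty_right _)
      adm_c1 adm_c1 hN hN
    simp only [Qf_empty, DD_empty, one_pow, mul_one, card_singleton, pow_one] at this
    have := (abs_le.1 this).2
    unfold MM
    linarith
  have h3 : 1 / (D.DD (J t) D.c1 * D.DD (J t') D.c1) * EE W b X (fun n => D.nuZ sh {o} n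
      * (D.Qf sh (J t) D.c1 n ^ 2 * D.Qf sh (J t') D.c1 n ^ 2))
      ≤ (if t = t' then D.mean nu * D.MM N else 0) + D.mean nu + η * D.κ * D.MM N := by
    have a1 := one_le_DD (D := D) (J t)
    have a2 := one_le_DD (D := D) (J t')
    have a3 : 1 ≤ D.DD (J t) D.c1 * D.DD (J t') D.c1 := one_le_mul_of_one_le_of_one_le a1 a2
    rw [one_div_mul_eq_div, div_le_iff₀ (by linarith)]
    split_ifs with h
    · subst h
      have := fourth H hη hZ (hd t) adm_c1 (w.card_le t)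
      simp only [card_singleton, pow_one] at this
      refine this.trans (le_trans ?_ (le_mul_of_one_le_right (by positivity) a3))
      unfold MM
      linarith
    · have := two H hη hZ (hd t) (hd t') (w.disj t ht t' ht' h) adm_c1 adm_c1
        (w.card_le t) (w.card_le t')
      simp only [card_singleton, pow_one] at this
      have := (abs_le.1 this).2
      unfold MM at he ⊢
      nlinarith
  have e : ∀ n, D.nuZ sh {o} n * (D.Rt sh (J t) n * D.Rt sh (J t') n)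
      = 1 / (D.DD (J t) D.c1 * D.DD (J t') D.c1) * (D.nuZ sh {o} n
      * (D.Qf sh (J t) D.c1 n ^ 2 * D.Qf sh (J t') D.c1 n ^ 2))
      + ((-1) * (1 / D.DD (J t) D.c1 * (D.nuZ sh {o} n * D.Qf sh (J t) D.c1 n ^ 2))
      + ((-1) * (1 / D.DD (J t') D.c1 * (D.nuZ sh {o} n * D.Qf sh (J t') D.c1 n ^ 2))
      + D.nuZ sh {o} n)) := by
    intro n; unfold Rt; ring
  rw [EE_congr _ _ _ e]
  simp only [EE_add, EE_mul_left]
  have := h1 t
  have := h1 t'
  linarith

lemma EE_var (H : D.StarHyp sh W b X η) (hη : 0 ≤ η) (w : D.Win o T J N) (hT : 0 < T) :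
    EE W b X (fun n => D.nuZ sh {o} n * (1 / T * ∑ t ∈ range T, D.Rt sh (J t) n) ^ 2)
      ≤ D.mean nu * D.MM N / T + 4 * (η * D.κ * D.MM N) := by
  have hT' : (0 : ℝ) < T := by positivity
  have e : ∀ n, D.nuZ sh {o} n * (1 / T * ∑ t ∈ range T, D.Rt sh (J t) n) ^ 2
      = (1 / T) ^ 2 * ∑ t ∈ range T, ∑ t' ∈ range T,
        D.nuZ sh {o} n * (D.Rt sh (J t) n * D.Rt sh (J t') n) := by
    intro n
    simp only [← mul_sum, ← sum_mul]; ring
  rw [EE_congr _ _ _ e, EE_mul_left]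
  simp only [EE_sum]
  calc _ ≤ (1 / T : ℝ) ^ 2 * ∑ t ∈ range T, ∑ t' ∈ range T,
        ((if t = t' then D.mean nu * D.MM N else 0) + 4 * (η * D.κ * D.MM N)) := by
        gcongr with t ht t' ht'
        exact EE_RR H hη w (mem_range.1 ht) (mem_range.1 ht')
    _ = _ := by
        rw [sum_congr rfl (g := fun _ => D.mean nu * D.MM N + T * (4 * (η * D.κ * D.MM N)))]
        · simp only [sum_const, card_range, nsmul_eq_mul]; field_simp
        · intro t ht
          simp [sum_add_distrib, ht]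

lemma EE_pair (H : D.StarHyp sh W b X η) (hη : 0 ≤ η) (w : D.Win o T J N) {t : ℕ} {j : ι}
    (hj : j ∈ J t) :
    EE W b X (D.nuZ sh {o, j}) ≤ D.mean nu ^ 2 + η * D.κ ^ 2 * D.MM N := by
  have hN : ((∅ : Finset ι).card : ℝ) ≤ N := by simpa using (Nat.cast_nonneg _).trans (w.card_le 0)
  have hc : ({o, j} : Finset ι).card = 2 := card_pair (by rintro rfl; exact w.not_mem t hj)
  have := two H hη hc.le (disjoint_empty_right _) (disjoint_empty_right _) (disjoint_empty_right _)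
    adm_c1 adm_c1 hN hN
  simp only [Qf_empty, DD_empty, one_pow, mul_one, hc] at this
  have := (abs_le.1 this).2
  unfold MM
  linarith

lemma EE_red (H : D.StarHyp sh W b X η) (hη : 0 ≤ η) (w : D.Win o T J N) {t : ℕ} {j : ι}
    (hj : j ∈ J t) :
    1 / D.DD (J t) D.c1 * EE W b X (fun n => D.nuZ sh {o, j} n * D.Qf sh ((J t).erase j) D.cβ n ^ 2)
      ≤ D.mean nu ^ 2 * (4 * (N * D.δ * (Real.exp D.K / (D.lam * D.I))))
        + η * D.κ ^ 2 * D.MM N := by
  have hN : ((∅ : Finset ι).card : ℝ) ≤ N := by simpa using (Nat.cast_nonneg _).trans (w.card_le 0)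
  have hc : ({o, j} : Finset ι).card = 2 := card_pair (by rintro rfl; exact w.not_mem t hj)
  have hd : Disjoint {o, j} ((J t).erase j) := by
    rw [disjoint_left]
    intro a ha ha'
    rcases mem_insert.1 ha with rfl | ha
    · exact w.not_mem t (mem_erase.1 ha').2
    · exact (mem_erase.1 ha').1 (mem_singleton.1 ha)
  have := two H hη hc.le hd (disjoint_empty_right _) (disjoint_empty_right _)
    adm_cβ adm_c1 (le_trans (by exact_mod_cast card_erase_le) (w.card_le t)) hN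
  simp only [Qf_empty, DD_empty, one_pow, mul_one, hc] at this
  have h1 := (abs_le.1 this).2
  have h2 := one_le_DD (D := D) (J t)
  have h3 := DD_cβ_le (D := D) (erase_subset j (J t))
  have h4 := tail_le (D := D) (J t) (w.card_le t)
  have h5 := Dall_le (D := D) (J t)
  have h6 := Dall_nonneg (D := D) (J t)
  have h7 := w.small
  have hκ := D.κ_pos
  have hM : 0 < D.MM N := Real.exp_pos _
  have he : 0 ≤ η * D.κ ^ 2 * D.MM N := by positivity
  have hε : 0 ≤ N * D.δ * (Real.exp D.K / (D.lam * D.I)) := by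
    have := D.δ_pos; have := D.lam_pos
    have : 0 ≤ N := by simpa using hN
    positivity
  set ε := N * D.δ * (Real.exp D.K / (D.lam * D.I))
  have h8 : D.Dall (J t) ≤ 2 * D.DD (J t) D.c1 := by nlinarith
  have h9 : D.DD ((J t).erase j) D.cβ ≤ 4 * ε * D.DD (J t) D.c1 := by nlinarith
  have h10 : D.mean nu ^ 2 * D.DD ((J t).erase j) D.cβ
      ≤ D.mean nu ^ 2 * (4 * ε * D.DD (J t) D.c1) := by gcongr
  rw [one_div_mul_eq_div, div_le_iff₀ (by linarith)]
  unfold MM at he ⊢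
  nlinarith

open Classical in
/-- the exceptional points -/
def Bad (D : Blk) (sh : ι → ℕ) (o : ι) (T : ℕ) (J : ℕ → Finset ι) (L : ℕ) (n : ℕ) : Prop :=
  D.Rough (n + sh o) ∧ ((∀ t < T, ∃ j ∈ J t, D.Rough (n + sh j)) ∨
    L ≤ ∑ t ∈ range T, ((J t).filter fun j => D.Rough (n + sh j)).card)

lemma nuZ_pair {j : ι} (h : o ≠ j) (n : ℕ) :
    D.nuZ sh {o, j} n = D.nuZ sh {o} n * D.ev nu (n + sh j) := by
  simp [nuZ, prod_pair h]

open Classical in
lemma pointwise (w : D.Win o T J N) (hT : 0 < T) {L : ℕ} (hL : 0 < L) (n : ℕ) :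
    (if D.Bad sh o T J L n then (1 : ℝ) else 0)
      ≤ 4 * (D.nuZ sh {o} n * (1 / T * ∑ t ∈ range T, D.Rt sh (J t) n) ^ 2)
      + (2 / T * ∑ t ∈ range T, ∑ j ∈ J t, 1 / D.DD (J t) D.c1
          * (D.nuZ sh {o, j} n * D.Qf sh ((J t).erase j) D.cβ n ^ 2)
      + 1 / L * ∑ t ∈ range T, ∑ j ∈ J t, D.nuZ sh {o, j} n) := by
  have hT' : (0 : ℝ) < T := by positivity
  have hL' : (0 : ℝ) < L := by positivity
  have hD : ∀ t, 0 < D.DD (J t) D.c1 := fun t => zero_lt_one.trans_le (one_le_DD _)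
  have p0 : ∀ t j, 0 ≤ 1 / D.DD (J t) D.c1
      * (D.nuZ sh {o, j} n * D.Qf sh ((J t).erase j) D.cβ n ^ 2) := fun t j =>
    mul_nonneg (one_div_nonneg.2 (hD t).le) (mul_nonneg (nuZ_nonneg _ _) (sq_nonneg _))
  have p1 : 0 ≤ D.nuZ sh {o} n * (1 / T * ∑ t ∈ range T, D.Rt sh (J t) n) ^ 2 :=
    mul_nonneg (nuZ_nonneg _ _) (sq_nonneg _)
  have p2 : 0 ≤ 2 / (T : ℝ) * ∑ t ∈ range T, ∑ j ∈ J t, 1 / D.DD (J t) D.c1
      * (D.nuZ sh {o, j} n * D.Qf sh ((J t).erase j) D.cβ n ^ 2) :=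
    mul_nonneg (by positivity) (sum_nonneg fun t _ => sum_nonneg fun j _ => p0 t j)
  have p3 : 0 ≤ 1 / (L : ℝ) * ∑ t ∈ range T, ∑ j ∈ J t, D.nuZ sh {o, j} n :=
    mul_nonneg (by positivity) (sum_nonneg fun t _ => sum_nonneg fun j _ => nuZ_nonneg _ _)
  split_ifs with h
  swap
  · linarith
  obtain ⟨h0, h⟩ := h
  have n0 : D.nuZ sh {o} n = 1 := by simp [nuZ, ev_nu_rough h0]
  have n1 : ∀ t, ∀ j ∈ J t, D.Rough (n + sh j) → D.nuZ sh {o, j} n = 1 := by
    intro t j hj hr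
    rw [nuZ_pair (by rintro rfl; exact w.not_mem t hj), n0, ev_nu_rough hr, mul_one]
  rcases h with h | h
  · have q1 : ∑ t ∈ range T, D.Rt sh (J t) n + T ≤ ∑ t ∈ range T, ∑ j ∈ J t, 1 / D.DD (J t) D.c1
        * (D.nuZ sh {o, j} n * D.Qf sh ((J t).erase j) D.cβ n ^ 2) := by
      have : ∑ t ∈ range T, D.Rt sh (J t) n + T = ∑ t ∈ range T, (D.Rt sh (J t) n + 1) := by
        simp [sum_add_distrib]
      rw [this]
      refine sum_le_sum fun t ht => ?_
      obtain ⟨j, hj, hr⟩ := h t (mem_range.1 ht)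
      refine le_trans (le_of_eq ?_) (single_le_sum (fun j _ => p0 t j) hj)
      rw [n1 t j hj hr, Rt, Qf_rough hj hr]; ring
    have q2 : 2 / (T : ℝ) * (∑ t ∈ range T, D.Rt sh (J t) n + T)
        = 2 * (1 / T * ∑ t ∈ range T, D.Rt sh (J t) n) + 2 := by field_simp
    have q3 := mul_le_mul_of_nonneg_left q1 (by positivity : 0 ≤ 2 / (T : ℝ))
    rw [n0]
    nlinarith [sq_nonneg (2 * (1 / T * ∑ t ∈ range T, D.Rt sh (J t) n) + 1 / 2)]
  · have q1 : (L : ℝ) ≤ ∑ t ∈ range T, ∑ j ∈ J t, D.nuZ sh {o, j} n := by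
      refine le_trans (by exact_mod_cast h : (L : ℝ) ≤ ∑ t ∈ range T,
        (((J t).filter fun j => D.Rough (n + sh j)).card : ℝ)) (sum_le_sum fun t _ => ?_)
      rw [card_eq_sum_ones, Nat.cast_sum]
      refine le_trans (sum_le_sum fun j hj => ?_)
        (sum_le_sum_of_subset_of_nonneg (filter_subset _ _) fun _ _ _ => nuZ_nonneg _ _)
      rw [n1 t j (mem_filter.1 hj).1 (mem_filter.1 hj).2, Nat.cast_one]
    have q2 : 1 ≤ 1 / (L : ℝ) * ∑ t ∈ range T, ∑ j ∈ J t, D.nuZ sh {o, j} n := by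
      rw [one_div_mul_eq_div, one_le_div hL']; exact q1
    linarith

open Classical in
theorem EE_bad (H : D.StarHyp sh W b X η) (hη : 0 ≤ η) (w : D.Win o T J N) (hT : 0 < T) {L : ℕ}
    (hL : 0 < L) :
    EE W b X (fun n => if D.Bad sh o T J L n then (1 : ℝ) else 0)
      ≤ 4 * (D.mean nu * D.MM N / T + 4 * (η * D.κ * D.MM N))
      + (2 * N * (D.mean nu ^ 2 * (4 * (N * D.δ * (Real.exp D.K / (D.lam * D.I))))
        + η * D.κ ^ 2 * D.MM N) + T * N / L * (D.mean nu ^ 2 + η * D.κ ^ 2 * D.MM N)) := by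
  have hT' : (0 : ℝ) < T := by positivity
  have hL' : (0 : ℝ) < L := by positivity
  have hκ := D.κ_pos
  have hM : 0 < D.MM N := Real.exp_pos _
  have hN : 0 ≤ N := (Nat.cast_nonneg _).trans (w.card_le 0)
  have := D.δ_pos
  have := D.lam_pos
  refine (EE_mono _ _ _ (pointwise w hT hL)).trans ?_
  rw [EE_add, EE_add, EE_mul_left, EE_mul_left, EE_mul_left]
  simp only [EE_sum]
  have key : ∀ (f : ℕ → ι → ℝ) (c : ℝ), 0 ≤ c → (∀ t, ∀ j ∈ J t, f t j ≤ c) →
      ∑ t ∈ range T, ∑ j ∈ J t, f t j ≤ T * N * c := by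
    intro f c hc hf
    calc _ ≤ ∑ t ∈ range T, N * c := by
          refine sum_le_sum fun t _ => (sum_le_sum (hf t)).trans ?_
          rw [sum_const, nsmul_eq_mul]
          gcongr; exact w.card_le t
      _ = _ := by simp [mul_assoc]
  refine add_le_add (by gcongr; exact EE_var H hη w hT) (add_le_add ?_ ?_)
  · simp only [EE_mul_left]
    refine (mul_le_mul_of_nonneg_left (key _ _ (by positivity) fun t j hj => EE_red H hη w hj)
      (by positivity)).trans (le_of_eq ?_)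
    field_simp
  · refine (mul_le_mul_of_nonneg_left (key _ _ (by positivity) fun t j hj => EE_pair H hη w hj)
      (by positivity)).trans (le_of_eq ?_)
    field_simp

end Blk

open Classical in
theorem exists_const (Λ : ℝ) {lam c ε : ℝ} (hlam : 0 < lam) (hc : 0 < c) (hε : 0 < ε) :
    ∃ I T L : ℕ, ∃ η : ℝ, 1 ≤ I ∧ 0 < T ∧ 0 < L ∧ 0 < η ∧
      ∀ D : Blk, D.Λ = Λ → D.lam = lam → D.I = I → ∀ (H : ℕ) (sh : Fin H → ℕ) (W b X : ℕ)
        (o : Fin H) (J : ℕ → Finset (Fin H)) (N : ℝ), D.StarHyp sh W b X η →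
        (∀ t < T, ∀ t' < T, t ≠ t' → Disjoint (J t) (J t')) → (∀ t, o ∉ J t) →
        (∀ t, ((J t).card : ℝ) ≤ N) → N * D.δ ≤ c →
        EE W b X (fun n => if D.Bad sh o T J L n then (1 : ℝ) else 0) ≤ ε * D.δ := by
  set a := Real.exp (Real.exp (164 * Λ)) with ha
  have ha0 : 0 < a := Real.exp_pos _
  obtain ⟨I, hI⟩ := exists_nat_gt (4 * c * a / lam + 32 * c ^ 2 * a ^ 3 / (lam * ε))
  have i1 : 0 < 4 * c * a / lam := by positivity
  have i2 : 0 < 32 * c ^ 2 * a ^ 3 / (lam * ε) := by positivity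
  have hI0 : (0 : ℝ) < I := by linarith
  set κ₀ := ((1 + 1 / lam) ^ 4 * Real.exp (81 * Λ)) ^ I * a * 2 ^ I with hκ₀
  have hκ0 : 0 < κ₀ := by positivity
  set M := Real.exp ((I + 1) ^ 4 * κ₀ * (2 * c)) with hM
  have hM0 : 0 < M := Real.exp_pos _
  obtain ⟨T, hT⟩ := exists_nat_gt (16 * a * M / ε)
  have hT0 : (0 : ℝ) < T := lt_trans (by positivity) hT
  obtain ⟨L, hL⟩ := exists_nat_gt (4 * T * c * a ^ 2 / ε)
  have hL0 : (0 : ℝ) < L := lt_trans (by positivity) hL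
  set η := ε / (4 * (M * (16 * κ₀ + 2 * c * κ₀ ^ 2 + T * c * κ₀ ^ 2 / L))) with hη
  have hη0 : 0 < η := by positivity
  refine ⟨I, T, L, η, by exact_mod_cast hI0, by exact_mod_cast hT0, by exact_mod_cast hL0, hη0, ?_⟩
  intro D e1 e2 e3 H sh W b X o J N hS hd ho hN hNc
  have hδ := D.δ_pos
  have hN0 : 0 ≤ N := (Nat.cast_nonneg _).trans (hN 0)
  have eK : Real.exp D.K = a := by rw [Blk.K, e1]
  have eκ : D.κ = κ₀ * D.δ := by rw [Blk.κ, Blk.β, eK, e1, e2, e3]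
  have hv : D.mean Blk.nu ≤ a * D.δ := eK ▸ Blk.mean_nu_le
  have hv0 := Blk.mean_nu_nonneg (D := D)
  have hMM : D.MM N ≤ M := by
    rw [Blk.MM, eκ, e3]
    apply Real.exp_le_exp.2
    calc _ = ((I : ℝ) + 1) ^ 4 * κ₀ * (2 * (N * D.δ)) := by ring
      _ ≤ _ := by gcongr
  have hMM0 : 0 < D.MM N := Real.exp_pos _
  have w : D.Win o T J N := ⟨hd, ho, hN, by
    rw [eK, e2, e3]
    calc _ ≤ c * (a / (lam * I)) := by gcongr
      _ = (4 * c * a / lam) / I / 4 := by field_simp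
      _ ≤ I / I / 4 := by gcongr; linarith
      _ = _ := by rw [div_self hI0.ne']⟩
  refine (Blk.EE_bad hS hη0.le w (by exact_mod_cast hT0) (by exact_mod_cast hL0)).trans ?_
  rw [eK, e2, e3, eκ]
  have b1 : 4 * a * M / T ≤ ε / 4 := by
    rw [div_lt_iff₀ hε] at hT
    rw [div_le_iff₀ hT0]; linarith
  have b2 : 8 * c ^ 2 * a ^ 3 / (lam * I) ≤ ε / 4 := by
    have : 32 * c ^ 2 * a ^ 3 / (lam * ε) ≤ I := by linarith
    rw [div_le_iff₀ (by positivity)] at this ⊢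
    linarith
  have b3 : T * c * a ^ 2 / L ≤ ε / 4 := by
    rw [div_lt_iff₀ hε] at hL
    rw [div_le_iff₀ hL0]; linarith
  have b4 : η * (M * (16 * κ₀ + 2 * c * κ₀ ^ 2 + T * c * κ₀ ^ 2 / L)) = ε / 4 := by
    rw [hη]; field_simp
  calc _ ≤ 4 * (a * D.δ * M / T + 4 * (η * (κ₀ * D.δ) * M))
        + (2 * N * ((a * D.δ) ^ 2 * (4 * (c * (a / (lam * I)))) + η * (κ₀ * D.δ) ^ 2 * M)
        + T * N / L * ((a * D.δ) ^ 2 + η * (κ₀ * D.δ) ^ 2 * M)) := by gcongr
    _ = (4 * a * M / T + 16 * η * κ₀ * M + (N * D.δ) * (8 * c * a ^ 3 / (lam * I)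
        + 2 * η * κ₀ ^ 2 * M + T * a ^ 2 / L + T * η * κ₀ ^ 2 * M / L)) * D.δ := by ring
    _ ≤ (4 * a * M / T + 16 * η * κ₀ * M + c * (8 * c * a ^ 3 / (lam * I)
        + 2 * η * κ₀ ^ 2 * M + T * a ^ 2 / L + T * η * κ₀ ^ 2 * M / L)) * D.δ := by gcongr
    _ = (4 * a * M / T + 8 * c ^ 2 * a ^ 3 / (lam * I) + T * c * a ^ 2 / L
        + η * (M * (16 * κ₀ + 2 * c * κ₀ ^ 2 + T * c * κ₀ ^ 2 / L))) * D.δ := by ring
    _ ≤ _ := by gcongr; linarith

end Crest.Agent.H0021
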