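import Crest.Agent.H0021.NI

/-! One-block moments and the truncated sieve factor. -/

open Finset

namespace Crest.Agent.H0021

lemma mB_congr (B : Finset ℕ) {φ ψ : ℕ → ℝ} (h : ∀ w, φ w = ψ w) : mB B φ = mB B ψ := by
  rw [show φ = ψ from funext h]

lemma mB_add (B : Finset ℕ) (φ ψ : ℕ → ℝ) : mB B (fun w => φ w + ψ w) = mB B φ + mB B ψ :=
  avg_add _ _ _

lemma mB_mul_left (B : Finset ℕ) (c : ℝ) (φ : ℕ → ℝ) : mB B (fun w => c * φ w) = c * mB B φ :=
  avg_mul_left _ _ _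

lemma mB_const {B : Finset ℕ} (hB : ∀ q ∈ B, q.Prime) (c : ℝ) : mB B (fun _ => c) = c :=
  avg_const (prodB_pos hB) c

lemma abs_mB_le (B : Finset ℕ) {φ ψ : ℕ → ℝ} (h : ∀ w, |φ w| ≤ ψ w) : |mB B φ| ≤ mB B ψ :=
  abs_avg_le fun _ => h _

lemma mB_nonneg (B : Finset ℕ) {φ : ℕ → ℝ} (h : ∀ w, 0 ≤ φ w) : 0 ≤ mB B φ :=
  avg_nonneg fun _ => h _

lemma abs_mB_le_exp {B : Finset ℕ} (hB : ∀ q ∈ B, q.Prime) {R c : ℝ} (hR : 1 ≤ R) {φ : ℕ → ℝ}
    (h : ∀ w, |φ w| ≤ c * R ^ w) : |mB B φ| ≤ c * Real.exp (R * ∑ q ∈ B, (1 : ℝ) / q) := by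
  have := avg_bound {0} hR B hB (fun w => φ (w 0)) c (by simpa using fun w : ℕ → ℕ => h (w 0))
  simpa [mB] using this

/-- probability that no prime of the block divides -/
noncomputable def P0 (B : Finset ℕ) : ℝ := ∏ q ∈ B, (1 - 1 / (q : ℝ))

lemma mB_zero {B : Finset ℕ} (hB : ∀ q ∈ B, q.Prime) :
    mB B (fun w => if w = 0 then 1 else 0) = P0 B := by
  induction B using Finset.induction_on with
  | empty => simp [mB_empty, P0]
  | insert p B hp ih =>
    have hpp := hB p (mem_insert_self _ _)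
    have hB' : ∀ q ∈ B, q.Prime := fun q hq => hB q (mem_insert_of_mem hq)
    rw [mB_insert hp hpp hB', P0, prod_insert hp, ← P0, ← ih hB', ← mB_mul_left]
    exact mB_congr _ fun w => by simp [tp]

lemma mB_id {B : Finset ℕ} (hB : ∀ q ∈ B, q.Prime) :
    mB B (fun w => (w : ℝ)) = ∑ q ∈ B, (1 : ℝ) / q := by
  induction B using Finset.induction_on with
  | empty => simp [mB_empty]
  | insert p B hp ih =>
    have hpp := hB p (mem_insert_self _ _)
    have hB' : ∀ q ∈ B, q.Prime := fun q hq => hB q (mem_insert_of_mem hq)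
    rw [mB_insert hp hpp hB', sum_insert hp, ← ih hB', ← mB_const hB' (1 / (p : ℝ)), ← mB_add]
    exact mB_congr _ fun w => by simp only [tp]; push_cast; ring

lemma mB_sq {B : Finset ℕ} (hB : ∀ q ∈ B, q.Prime) :
    mB B (fun w => (w : ℝ) ^ 2) ≤ (∑ q ∈ B, (1 : ℝ) / q) ^ 2 + ∑ q ∈ B, (1 : ℝ) / q := by
  induction B using Finset.induction_on with
  | empty => simp [mB_empty]
  | insert p B hp ih =>
    have hpp := hB p (mem_insert_self _ _)
    have hB' : ∀ q ∈ B, q.Prime := fun q hq => hB q (mem_insert_of_mem hq)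
    have e : mB B (tp p fun w => (w : ℝ) ^ 2)
        = mB B (fun w => (w : ℝ) ^ 2) + ((2 / p) * mB B (fun w => (w : ℝ)) + 1 / p) := by
      rw [← mB_mul_left, ← mB_const hB' (1 / (p : ℝ)), ← mB_add, ← mB_add]
      exact mB_congr _ fun w => by simp only [tp]; push_cast; ring
    rw [mB_insert hp hpp hB', sum_insert hp, e, mB_id hB']
    have := ih hB'
    have h2 : (0 : ℝ) ≤ (1 / p) ^ 2 := by positivity
    have e2 : (2 : ℝ) / p = 2 * (1 / p) := by ring
    rw [e2]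
    nlinarith

lemma exp_le_P0 {B : Finset ℕ} (hB : ∀ q ∈ B, q.Prime) :
    Real.exp (-(2 * ∑ q ∈ B, (1 : ℝ) / q)) ≤ P0 B := by
  rw [mul_sum, ← sum_neg_distrib, Real.exp_sum]
  refine prod_le_prod (fun _ _ => (Real.exp_pos _).le) fun q hq => ?_
  have h2 : (2 : ℝ) ≤ q := by exact_mod_cast (hB q hq).two_le
  have ht : (1 : ℝ) / q ≤ 1 / 2 := by gcongr
  have ht0 : (0 : ℝ) ≤ 1 / q := by positivity
  set t := (1 : ℝ) / q
  rw [Real.exp_neg, inv_le_comm₀ (Real.exp_pos _) (by linarith)]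
  refine le_trans ?_ (Real.add_one_le_exp _)
  rw [inv_le_iff_one_le_mul₀ (by linarith)]
  nlinarith

lemma P0_pos {B : Finset ℕ} (hB : ∀ q ∈ B, q.Prime) : 0 < P0 B :=
  (Real.exp_pos _).trans_le (exp_le_P0 hB)

lemma sieve_moment {B : Finset ℕ} (hB : ∀ q ∈ B, q.Prime) {Λ : ℝ}
    (hΛ : ∑ q ∈ B, (1 : ℝ) / q ≤ Λ) {φ : ℕ → ℝ} {r : ℕ}
    (h : ∀ w, |φ w| ≤ 81 ^ w) (h0 : ∀ w, 1 ≤ w → w ≤ r → φ w = 0) :
    |mB B φ| ≤ P0 B * (1 + Real.exp (164 * Λ) / 2 ^ r) := by
  have h1 : ∀ w, |φ w| ≤ (if w = 0 then 1 else 0) + (1 / 2 ^ r) * (162 : ℝ) ^ w := by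
    intro w
    have hp : (0 : ℝ) ≤ (1 / 2 ^ r) * (162 : ℝ) ^ w := by positivity
    split_ifs with hw
    · subst hw; have := h 0; simp only [pow_zero] at this ⊢; linarith
    · by_cases hr : w ≤ r
      · rw [h0 w (by omega) hr]; simp
      · refine (h w).trans ?_
        have : (2 : ℝ) ^ r ≤ 2 ^ w := pow_le_pow_right₀ (by norm_num) (by omega)
        rw [zero_add, show (162 : ℝ) = 2 * 81 by norm_num, mul_pow, ← mul_assoc]
        refine le_mul_of_one_le_left (by positivity) ?_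
        rw [one_div_mul_eq_div, one_le_div (by positivity)]; exact this
  refine (abs_mB_le B h1).trans ?_
  rw [mB_add, mB_zero hB, mB_mul_left]
  have h2 := abs_mB_le_exp hB (R := 162) (c := 1) (by norm_num) (φ := fun w => (162 : ℝ) ^ w)
    (fun w => by rw [abs_of_nonneg (by positivity), one_mul])
  have h3 := exp_le_P0 hB
  have h4 : mB B (fun w => (162 : ℝ) ^ w) ≤ P0 B * Real.exp (164 * Λ) := by
    calc _ ≤ Real.exp (162 * ∑ q ∈ B, (1 : ℝ) / q) := by simpa using (le_abs_self _).trans h2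
      _ ≤ Real.exp (-(2 * ∑ q ∈ B, (1 : ℝ) / q)) * Real.exp (164 * Λ) := by
        rw [← Real.exp_add]; apply Real.exp_le_exp.2; linarith
      _ ≤ _ := by gcongr
  calc _ ≤ P0 B + 1 / 2 ^ r * (P0 B * Real.exp (164 * Λ)) := by gcongr
    _ = _ := by ring

/-- truncated sieve factor -/
noncomputable def sv (k w : ℕ) : ℝ := ∏ i ∈ range k, (1 - (w : ℝ) / (i + 1))

lemma sv_zero (k : ℕ) : sv k 0 = 1 := by simp [sv]

lemma sv_eq_zero {k w : ℕ} (h1 : 1 ≤ w) (h2 : w ≤ k) : sv k w = 0 := by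
  refine prod_eq_zero (i := w - 1) (mem_range.2 (by omega)) ?_
  have : ((w - 1 : ℕ) : ℝ) + 1 = w := by rw [Nat.cast_sub h1]; simp
  have h3 : (w : ℝ) ≠ 0 := by positivity
  rw [this, div_self h3, sub_self]

lemma abs_sv_le (k w : ℕ) : |sv k w| ≤ 3 ^ w := by
  rcases Nat.eq_zero_or_pos w with rfl | hw
  · simp [sv_zero]
  by_cases hk : w ≤ k
  · rw [sv_eq_zero hw hk]; simp
  have h1 : |sv k w| ≤ (w : ℝ) ^ k / k.factorial := by
    have e : (w : ℝ) ^ k / k.factorial = ∏ i ∈ range k, (w : ℝ) / (i + 1) := by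
      rw [prod_div_distrib, prod_const, card_range, ← prod_range_add_one_eq_factorial]
      push_cast; rfl
    rw [e, sv, abs_prod]
    refine prod_le_prod (fun _ _ => abs_nonneg _) fun i hi => ?_
    have hi := mem_range.1 hi
    have : (1 : ℝ) ≤ w / (i + 1) := by
      rw [one_le_div (by positivity)]; exact_mod_cast (by omega : i + 1 ≤ w)
    rw [abs_le]; constructor <;> linarith
  refine h1.trans ((Real.pow_div_factorial_le_exp (w : ℝ) (by positivity) k).trans ?_)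
  rw [← Real.exp_one_pow]
  exact pow_le_pow_left₀ (Real.exp_pos _).le (Real.exp_one_lt_d9.le.trans (by norm_num)) _

lemma rep_om {P : ℕ} {B : Finset ℕ} (hB : ∀ q ∈ B, q ∣ P) (j : ℕ) :
    Rep P (fun n => (om B (n + j) : ℝ)) B.card := by
  have := Rep.sum (P := P) B (F := fun q n => 1 * ind q j n) (N := fun _ => |(1 : ℝ)|)
    fun q hq => Rep.cls q j (hB q hq) 1
  refine (this.congr fun n => ?_).mono (by simp)
  simp [om, ind]

lemma rep_affine {P : ℕ} (hP : 0 < P) {B : Finset ℕ} (hB : ∀ q ∈ B, q ∣ P) (j : ℕ) (a b : ℝ) :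
    Rep P (fun n => a * (om B (n + j) : ℝ) + b) (|a| * B.card + |b|) :=
  ((Rep.const P a).mul hP (rep_om hB j)).add (Rep.const P b)

lemma rep_sv {P : ℕ} (hP : 0 < P) {B : Finset ℕ} (hB : ∀ q ∈ B, q ∣ P) (j k : ℕ) :
    Rep P (fun n => sv k (om B (n + j))) (((B.card : ℝ) + 1) ^ k) := by
  have := Rep.prod hP (range k) (F := fun i n => 1 - (om B (n + j) : ℝ) / (i + 1))
    (N := fun _ => (B.card : ℝ) + 1) fun i _ => by
      refine ((rep_affine hP hB j (-(1 / ((i : ℝ) + 1))) 1).congr fun n => by ring).mono ?_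
      rw [abs_neg, abs_of_nonneg (by positivity), abs_one]
      have : 1 / ((i : ℝ) + 1) ≤ 1 := by
        rw [div_le_one (by positivity)]; linarith [Nat.cast_nonneg (α := ℝ) i]
      have h2 : (0 : ℝ) ≤ B.card := by positivity
      nlinarith
  simpa [sv] using this

lemma abs_prod_sub_prod_le {ι : Type*} (s : Finset ι) (x y a ε : ι → ℝ)
    (hε : ∀ i ∈ s, 0 ≤ ε i) (h1 : ∀ i ∈ s, |x i - y i| ≤ ε i * a i) (h2 : ∀ i ∈ s, |y i| ≤ a i) :
    |∏ i ∈ s, x i - ∏ i ∈ s, y i| ≤ (∏ i ∈ s, a i) * (Real.exp (∑ i ∈ s, ε i) - 1) := by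
  classical
  induction s using Finset.induction_on with
  | empty => simp
  | insert i s hi ih =>
    have ih := ih (fun j hj => hε j (mem_insert_of_mem hj)) (fun j hj => h1 j (mem_insert_of_mem hj))
      (fun j hj => h2 j (mem_insert_of_mem hj))
    have a1 := hε i (mem_insert_self _ _)
    have a2 := h1 i (mem_insert_self _ _)
    have a3 := h2 i (mem_insert_self _ _)
    have a4 : |∏ j ∈ s, y j| ≤ ∏ j ∈ s, a j := by
      rw [abs_prod]
      exact prod_le_prod (fun _ _ => abs_nonneg _) fun j hj => h2 j (mem_insert_of_mem hj)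
    have a5 : 0 ≤ a i := (abs_nonneg _).trans a3
    have a6 : 0 ≤ ∏ j ∈ s, a j := (abs_nonneg _).trans a4
    have a7 : |x i| ≤ (ε i + 1) * a i := by
      calc |x i| = |(x i - y i) + y i| := by ring_nf
        _ ≤ |x i - y i| + |y i| := abs_add_le _ _
        _ ≤ _ := by linarith
    have a8 := Real.add_one_le_exp (ε i)
    have a9 : 1 ≤ Real.exp (∑ j ∈ s, ε j) :=
      Real.one_le_exp (sum_nonneg fun j hj => hε j (mem_insert_of_mem hj))
    simp only [prod_insert hi, sum_insert hi, Real.exp_add]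
    set X := ∏ j ∈ s, x j
    set Y := ∏ j ∈ s, y j
    set A := ∏ j ∈ s, a j
    set E := Real.exp (∑ j ∈ s, ε j)
    calc |x i * X - y i * Y| = |x i * (X - Y) + (x i - y i) * Y| := by ring_nf
      _ ≤ |x i| * |X - Y| + |x i - y i| * |Y| := by
        rw [← abs_mul, ← abs_mul]; exact abs_add_le _ _
      _ ≤ ((ε i + 1) * a i) * (A * (E - 1)) + (ε i * a i) * A := by gcongr
      _ = a i * A * ((ε i + 1) * E - 1) := by ring
      _ ≤ _ := by gcongr

lemma sum_mul_half_pow_le (n : ℕ) : ∑ i ∈ range n, ((i : ℝ) + 1) / 2 ^ i ≤ 4 := by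
  have : ∀ n : ℕ, ∑ i ∈ range n, ((i : ℝ) + 1) / 2 ^ i = 4 - (2 * n + 4) / 2 ^ n := by
    intro n
    induction n with
    | zero => norm_num
    | succ n ih => rw [sum_range_succ, ih]; push_cast; field_simp; ring
  rw [this]
  have : (0 : ℝ) ≤ (2 * n + 4) / 2 ^ n := by positivity
  linarith

lemma sum_half_pow_le (n : ℕ) : ∑ i ∈ range n, (1 : ℝ) / 2 ^ (i + 1) ≤ 1 := by
  have : ∀ n : ℕ, ∑ i ∈ range n, (1 : ℝ) / 2 ^ (i + 1) = 1 - 1 / 2 ^ n := by
    intro n
    induction n with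
    | zero => norm_num
    | succ n ih => rw [sum_range_succ, ih]; field_simp; ring
  rw [this]
  have : (0 : ℝ) ≤ 1 / 2 ^ n := by positivity
  linarith

end Crest.Agent.H0021
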