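import Crest.Agent.H0021.Avg

/-! Near independence of the prime-divisor counts of distinct shifts inside one block. -/

open Finset

namespace Crest.Agent.H0021

/-- number of members of `B` dividing `n` -/
def om (B : Finset ℕ) (n : ℕ) : ℕ := (B.filter (· ∣ n)).card

lemma om_insert {B : Finset ℕ} {p : ℕ} (hp : p ∉ B) (n : ℕ) :
    om (insert p B) n = om B n + if p ∣ n then 1 else 0 := by
  unfold om
  rw [filter_insert]
  split_ifs with h
  · rw [card_insert_of_notMem (by simp [hp])]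
  · simp

lemma om_modEq {B : Finset ℕ} {n m : ℕ} (h : n ≡ m [MOD ∏ p ∈ B, p]) : om B n = om B m := by
  unfold om
  congr 1
  exact filter_congr fun p hp => h.dvd_iff (dvd_prod_of_mem _ hp)

lemma prodB_pos {B : Finset ℕ} (hB : ∀ p ∈ B, p.Prime) : 0 < ∏ p ∈ B, p :=
  prod_pos fun p hp => (hB p hp).pos

/-- one-prime averaging operator -/
noncomputable def Tp (p : ℕ) (Ψ : (ℕ → ℕ) → ℝ) (w : ℕ → ℕ) : ℝ :=
  avg p (fun a => Ψ (fun j => w j + if p ∣ a + j then 1 else 0))

lemma avg_insert {B : Finset ℕ} {p : ℕ} (hp : p ∉ B) (hpp : p.Prime) (hB : ∀ q ∈ B, q.Prime)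
    (Ψ : (ℕ → ℕ) → ℝ) :
    avg (∏ q ∈ insert p B, q) (fun n => Ψ (fun j => om (insert p B) (n + j)))
      = avg (∏ q ∈ B, q) (fun n => Tp p Ψ (fun j => om B (n + j))) := by
  rw [prod_insert hp, mul_comm]
  have hc : Nat.Coprime (∏ q ∈ B, q) p := by
    refine Nat.Coprime.prod_left fun q hq => ?_
    exact (Nat.coprime_primes (hB q hq) hpp).2 (by rintro rfl; exact hp hq)
  have := avg_crt hc (prodB_pos hB) hpp.pos
    (fun n a => Ψ (fun j => om B (n + j) + if p ∣ a + j then 1 else 0)) ?_ ?_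
  · simp only [om_insert hp]; exact this
  · intro a n m h
    simp only [fun j => om_modEq (h.add_right j)]
  · intro n a a' h
    simp only [fun j => (h.add_right j).dvd_iff dvd_rfl]

lemma avg_pow_card_le {p : ℕ} (hp : 0 < p) (A : Finset ℕ) {R : ℝ} (hR : 1 ≤ R) :
    avg p (fun a => R ^ (∑ j ∈ A, if p ∣ a + j then 1 else 0))
      ≤ Real.exp (A.card * R ^ A.card / p) := by
  have h1 : ∀ a, R ^ (∑ j ∈ A, if p ∣ a + j then 1 else 0)
      ≤ 1 + R ^ A.card * ∑ j ∈ A, ind p j a := by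
    intro a
    by_cases h : ∃ j ∈ A, p ∣ a + j
    · obtain ⟨j, hj, hd⟩ := h
      have h2 : (1 : ℝ) ≤ ∑ j ∈ A, ind p j a := by
        have := single_le_sum (f := fun j => ind p j a) (fun j _ => ind_nonneg p j a) hj
        simpa [ind, hd] using this
      have h3 : R ^ (∑ j ∈ A, if p ∣ a + j then 1 else 0) ≤ R ^ A.card := by
        apply pow_le_pow_right₀ hR
        calc _ ≤ ∑ j ∈ A, 1 := sum_le_sum fun j _ => by split_ifs <;> simp
          _ = _ := by simp
      have h4 : 0 ≤ R ^ A.card := by positivity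
      nlinarith
    · push Not at h
      rw [sum_eq_zero (fun j hj => by simp [h j hj])]
      have : 0 ≤ R ^ A.card * ∑ j ∈ A, ind p j a :=
        mul_nonneg (by positivity) (sum_nonneg fun j _ => ind_nonneg _ _ _)
      simp; linarith
  refine (avg_mono h1).trans ?_
  rw [avg_add, avg_const hp, avg_mul_left, avg_sum]
  simp only [avg_ind hp dvd_rfl, sum_const, nsmul_eq_mul]
  refine le_trans (le_of_eq ?_) (Real.add_one_le_exp _)
  ring

lemma avg_bound (A : Finset ℕ) {R : ℝ} (hR : 1 ≤ R) (B : Finset ℕ) (hB : ∀ q ∈ B, q.Prime) :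
    ∀ (Ψ : (ℕ → ℕ) → ℝ) (c : ℝ), (∀ w, |Ψ w| ≤ c * R ^ (∑ j ∈ A, w j)) →
      |avg (∏ q ∈ B, q) (fun n => Ψ (fun j => om B (n + j)))|
        ≤ c * Real.exp (A.card * R ^ A.card * ∑ q ∈ B, (1 : ℝ) / q) := by
  induction B using Finset.induction_on with
  | empty =>
    intro Ψ c h
    simpa [avg_one, om] using h (fun _ => 0)
  | insert p B hp ih =>
    intro Ψ c h
    have hpp := hB p (mem_insert_self _ _)
    have hB' : ∀ q ∈ B, q.Prime := fun q hq => hB q (mem_insert_of_mem hq)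
    have hc : 0 ≤ c := by simpa using (abs_nonneg _).trans (h (fun _ => 0))
    rw [avg_insert hp hpp hB', sum_insert hp, mul_add, Real.exp_add, ← mul_assoc]
    apply ih hB'
    intro w
    unfold Tp
    refine (abs_avg_le (G := fun a => c * R ^ (∑ j ∈ A, w j) *
      R ^ (∑ j ∈ A, if p ∣ a + j then 1 else 0)) fun a => ?_).trans ?_
    · refine (h _).trans (le_of_eq ?_)
      rw [sum_add_distrib, pow_add, mul_assoc]
    · rw [avg_mul_left]
      have := avg_pow_card_le hpp.pos A hR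
      calc _ ≤ c * R ^ (∑ j ∈ A, w j) * Real.exp (A.card * R ^ A.card / p) := by gcongr
        _ = _ := by rw [mul_one_div]; ring

open Classical in
/-- the dependence created by the prime `p` between the shifts in `A` -/
noncomputable def tau (A : Finset ℕ) (p : ℕ) : ℝ :=
  1 / (p : ℝ) ^ 2 + if ∃ j ∈ A, ∃ j' ∈ A, j ≠ j' ∧ j ≡ j' [MOD p] then 1 / (p : ℝ) else 0

lemma tau_nonneg (A : Finset ℕ) (p : ℕ) : 0 ≤ tau A p := by
  unfold tau; split_ifs <;> positivity

lemma avg_prod_ind_sub {p : ℕ} (hp : 0 < p) {A U : Finset ℕ} (hU : U ⊆ A) :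
    |avg p (fun a => ∏ j ∈ U, ind p j a) - (1 / (p : ℝ)) ^ U.card| ≤ tau A p := by
  have hp1 : (1 : ℝ) ≤ p := by exact_mod_cast hp
  rcases Nat.lt_or_ge U.card 2 with h | h
  · have : avg p (fun a => ∏ j ∈ U, ind p j a) = (1 / (p : ℝ)) ^ U.card := by
      interval_cases hc : U.card
      · rw [card_eq_zero] at hc; subst hc; simp [avg_const hp]
      · rw [card_eq_one] at hc
        obtain ⟨j, rfl⟩ := hc
        simpa using avg_ind hp dvd_rfl j
    rw [this]; simpa using tau_nonneg A p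
  · obtain ⟨j, hj, j', hj', hne⟩ := one_lt_card.1 h
    have h0 : 0 ≤ avg p (fun a => ∏ j ∈ U, ind p j a) :=
      avg_nonneg fun a => prod_nonneg fun _ _ => ind_nonneg _ _ _
    have h1 : (1 / (p : ℝ)) ^ U.card ≤ 1 / (p : ℝ) ^ 2 := by
      rw [← one_div_pow]
      exact pow_le_pow_of_le_one (by positivity) (by rw [div_le_one (by positivity)]; exact hp1) h
    have h2 : 0 ≤ (1 / (p : ℝ)) ^ U.card := by positivity
    have h3 : avg p (fun a => ∏ j ∈ U, ind p j a) ≤ 1 / p := by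
      rw [← avg_ind hp dvd_rfl j]
      refine avg_mono fun a => ?_
      rw [← mul_prod_erase U _ hj]
      exact mul_le_of_le_one_right (ind_nonneg _ _ _)
        (prod_le_one (fun _ _ => ind_nonneg _ _ _) fun _ _ => ind_le_one _ _ _)
    have h4 : (0 : ℝ) ≤ 1 / (p : ℝ) ^ 2 := by positivity
    have h5 : (0 : ℝ) ≤ 1 / (p : ℝ) := by positivity
    unfold tau
    split_ifs with hc
    · rw [abs_le]; constructor <;> linarith
    · have : avg p (fun a => ∏ j ∈ U, ind p j a) = 0 := by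
        rw [← avg_const hp 0]
        refine avg_congr fun a => ?_
        by_cases h6 : p ∣ a + j
        · refine prod_eq_zero hj' ?_
          simp only [ind, ite_eq_right_iff, one_ne_zero, imp_false]
          intro h7
          apply hc
          refine ⟨j, hU hj, j', hU hj', hne, ?_⟩
          exact Nat.ModEq.add_left_cancel' a
            ((Nat.modEq_zero_iff_dvd.2 h6).trans (Nat.modEq_zero_iff_dvd.2 h7).symm)
        · exact prod_eq_zero hj (by simp [ind, h6])
      rw [this, abs_le]; constructor <;> linarith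

lemma pointwise_ni {p : ℕ} (hp : 0 < p) (A : Finset ℕ) {R : ℝ} (hR : 1 ≤ R) (a b M : ℕ → ℝ)
    (ha : ∀ j ∈ A, |a j| ≤ M j) (hb : ∀ j ∈ A, |b j| ≤ R * M j) :
    |avg p (fun x => ∏ j ∈ A, if p ∣ x + j then b j else a j)
      - ∏ j ∈ A, ((1 - 1 / (p : ℝ)) * a j + 1 / p * b j)|
      ≤ (R + 2) ^ A.card * tau A p * ∏ j ∈ A, M j := by
  have e1 : ∀ x, (∏ j ∈ A, if p ∣ x + j then b j else a j)
      = ∑ U ∈ A.powerset, ((∏ j ∈ U, (b j - a j)) * ∏ j ∈ A \ U, a j) * ∏ j ∈ U, ind p j x := by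
    intro x
    rw [show (∏ j ∈ A, if p ∣ x + j then b j else a j)
      = ∏ j ∈ A, ((b j - a j) * ind p j x + a j) from
        prod_congr rfl fun j _ => by unfold ind; split_ifs <;> ring, prod_add]
    refine sum_congr rfl fun U _ => ?_
    rw [prod_mul_distrib]; ring
  have e2 : ∏ j ∈ A, ((1 - 1 / (p : ℝ)) * a j + 1 / p * b j)
      = ∑ U ∈ A.powerset, ((∏ j ∈ U, (b j - a j)) * ∏ j ∈ A \ U, a j) * (1 / (p : ℝ)) ^ U.card := by
    rw [show ∏ j ∈ A, ((1 - 1 / (p : ℝ)) * a j + 1 / p * b j)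
      = ∏ j ∈ A, ((b j - a j) * (1 / p) + a j) from prod_congr rfl fun j _ => by ring, prod_add]
    refine sum_congr rfl fun U _ => ?_
    rw [prod_mul_distrib, prod_const]; ring
  have e3 : (R + 2) ^ A.card * ∏ j ∈ A, M j
      = ∑ U ∈ A.powerset, (∏ j ∈ U, ((R + 1) * M j)) * ∏ j ∈ A \ U, M j := by
    rw [← prod_add, ← prod_const, ← prod_mul_distrib]
    exact prod_congr rfl fun j _ => by ring
  rw [avg_congr e1, avg_sum, e2, ← sum_sub_distrib, mul_right_comm, e3, sum_mul]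
  refine (abs_sum_le_sum_abs _ _).trans (sum_le_sum fun U hU => ?_)
  have hU := mem_powerset.1 hU
  rw [avg_mul_left, ← mul_sub, abs_mul, abs_mul, abs_prod, abs_prod]
  have hM : ∀ j ∈ A, 0 ≤ M j := fun j hj => (abs_nonneg _).trans (ha j hj)
  gcongr with j hj j hj
  · exact mul_nonneg (prod_nonneg fun j hj => mul_nonneg (by linarith) (hM j (hU hj)))
      (prod_nonneg fun j hj => hM j (mem_sdiff.1 hj).1)
  · exact prod_nonneg fun j hj => mul_nonneg (by linarith) (hM j (hU hj))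
  · have := ha j (hU hj); have := hb j (hU hj)
    calc |b j - a j| ≤ |b j| + |a j| := abs_sub _ _
      _ ≤ _ := by linarith
  · exact ha j (mem_sdiff.1 hj).1
  · exact avg_prod_ind_sub hp hU

/-- one-variable mean over a block -/
noncomputable def mB (B : Finset ℕ) (φ : ℕ → ℝ) : ℝ := avg (∏ q ∈ B, q) (fun n => φ (om B n))

/-- one-variable one-prime operator -/
noncomputable def tp (p : ℕ) (φ : ℕ → ℝ) (w : ℕ) : ℝ := (1 - 1 / (p : ℝ)) * φ w + 1 / p * φ (w + 1)

lemma mB_empty (φ : ℕ → ℝ) : mB ∅ φ = φ 0 := by simp [mB, avg_one, om]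

lemma mB_insert {B : Finset ℕ} {p : ℕ} (hp : p ∉ B) (hpp : p.Prime) (hB : ∀ q ∈ B, q.Prime)
    (φ : ℕ → ℝ) : mB (insert p B) φ = mB B (tp p φ) := by
  have := avg_insert hp hpp hB (fun w => φ (w 0))
  simp only [add_zero] at this
  unfold mB
  rw [this]
  refine avg_congr fun n => ?_
  unfold Tp tp
  simp only [add_zero]
  rw [avg_congr (G := fun a => φ (om B n) + (φ (om B n + 1) - φ (om B n)) * ind p 0 a), avg_add,
    avg_const hpp.pos, avg_mul_left, avg_ind hpp.pos dvd_rfl]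
  · ring
  · intro a; unfold ind; simp only [add_zero]; split_ifs <;> simp

lemma abs_tp_le {p : ℕ} (hp : 0 < p) {R β : ℝ} (hR : 1 ≤ R) {φ : ℕ → ℝ}
    (h : ∀ w, |φ w| ≤ β * R ^ w) (w : ℕ) : |tp p φ w| ≤ β * Real.exp (R / p) * R ^ w := by
  have hp1 : (1 : ℝ) ≤ p := by exact_mod_cast hp
  have h0 : (0 : ℝ) ≤ 1 - 1 / p := by
    rw [sub_nonneg, div_le_one (by positivity)]; exact hp1
  have h5 : (0 : ℝ) ≤ 1 / (p : ℝ) := by positivity
  have hβ : 0 ≤ β := by simpa using (abs_nonneg _).trans (h 0)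
  have h1 := h w
  have h2 := h (w + 1)
  have h3 := Real.add_one_le_exp (R / p)
  unfold tp
  calc _ ≤ |(1 - 1 / (p : ℝ)) * φ w| + |1 / p * φ (w + 1)| := abs_add_le _ _
    _ = (1 - 1 / (p : ℝ)) * |φ w| + 1 / p * |φ (w + 1)| := by
      rw [abs_mul, abs_mul, abs_of_nonneg h0, abs_of_nonneg h5]
    _ ≤ 1 * (β * R ^ w) + 1 / p * (β * R ^ (w + 1)) := by gcongr; linarith
    _ = β * (R / p + 1) * R ^ w := by ring
    _ ≤ _ := by gcongr

theorem block_ni (A : Finset ℕ) {R : ℝ} (hR : 1 ≤ R) (B : Finset ℕ) (hB : ∀ q ∈ B, q.Prime) :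
    ∀ (φ : ℕ → ℕ → ℝ) (β : ℕ → ℝ), (∀ j ∈ A, ∀ w, |φ j w| ≤ β j * R ^ w) →
      |avg (∏ q ∈ B, q) (fun n => ∏ j ∈ A, φ j (om B (n + j))) - ∏ j ∈ A, mB B (φ j)|
        ≤ (∏ j ∈ A, β j) * ((R + 2) ^ A.card * (∑ q ∈ B, tau A q)
          * Real.exp (A.card * R ^ A.card * ∑ q ∈ B, (1 : ℝ) / q)) := by
  induction B using Finset.induction_on with
  | empty => intro φ β h; simp [avg_one, om, mB_empty]
  | insert p B hp ih =>
    intro φ β h
    have hpp := hB p (mem_insert_self _ _)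
    have hB' : ∀ q ∈ B, q.Prime := fun q hq => hB q (mem_insert_of_mem hq)
    have hβ : ∀ j ∈ A, 0 ≤ β j := fun j hj => by simpa using (abs_nonneg _).trans (h j hj 0)
    have hβp : 0 ≤ ∏ j ∈ A, β j := prod_nonneg hβ
    have e1 := avg_insert hp hpp hB' (fun w => ∏ j ∈ A, φ j (w j))
    have i1 := ih hB' (fun j => tp p (φ j)) (fun j => β j * Real.exp (R / p))
      (fun j hj => abs_tp_le hpp.pos hR (h j hj))
    have i2 := avg_bound A hR B hB' (fun w => Tp p (fun w => ∏ j ∈ A, φ j (w j)) w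
      - ∏ j ∈ A, tp p (φ j) (w j)) ((R + 2) ^ A.card * tau A p * ∏ j ∈ A, β j) (by
        intro w
        have := pointwise_ni hpp.pos A hR (fun j => φ j (w j)) (fun j => φ j (w j + 1))
          (fun j => β j * R ^ w j) (fun j hj => h j hj _)
          (fun j hj => (h j hj _).trans (le_of_eq (by ring)))
        rw [prod_mul_distrib, prod_pow_eq_pow_sum, ← mul_assoc] at this
        refine le_trans (le_of_eq ?_) this
        unfold Tp tp
        congr 2
        refine avg_congr fun a => prod_congr rfl fun j _ => ?_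
        by_cases hh : p ∣ a + j <;> simp [hh])
    rw [avg_sub] at i2
    rw [e1]
    simp only [mB_insert hp hpp hB', sum_insert hp]
    rw [prod_mul_distrib, prod_const, ← Real.exp_nat_mul] at i1
    have h1 : Real.exp (A.card * (R / p)) ≤ Real.exp (A.card * R ^ A.card * (1 / p)) := by
      apply Real.exp_le_exp.2
      rcases Nat.eq_zero_or_pos A.card with h0 | h0
      · simp [h0]
      · have : R ≤ R ^ A.card := le_self_pow₀ hR h0.ne'
        rw [mul_assoc, mul_one_div]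
        gcongr
    have h2 : 1 ≤ Real.exp (A.card * R ^ A.card * (1 / p)) :=
      Real.one_le_exp (by positivity)
    have h3 : 0 ≤ ∑ q ∈ B, tau A q := sum_nonneg fun q _ => tau_nonneg _ _
    have h4 := tau_nonneg A p
    rw [mul_add (A.card * R ^ A.card : ℝ), Real.exp_add]
    set E1 := Real.exp (A.card * R ^ A.card * (1 / p))
    set E2 := Real.exp (A.card * R ^ A.card * ∑ q ∈ B, (1 : ℝ) / q)
    have hE2 : 0 ≤ E2 := (Real.exp_pos _).le
    refine (abs_sub_le _ _ _).trans ((add_le_add i2 i1).trans ?_)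
    calc _ ≤ (R + 2) ^ A.card * tau A p * (∏ j ∈ A, β j) * (E1 * E2)
          + (∏ j ∈ A, β j) * E1 * ((R + 2) ^ A.card * (∑ q ∈ B, tau A q) * E2) := by
          gcongr
          exact le_mul_of_one_le_left hE2 h2
      _ = _ := by ring

end Crest.Agent.H0021
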