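import Crest.Agent.H0021.Moments

/-! The block system, global near independence and transfer to the integers. -/

open Finset

namespace Crest.Agent.H0021

/-- a system of blocks of primes, indexed from the top -/
structure Blk where
  m : ℕ
  I : ℕ
  B : ℕ → Finset ℕ
  Λ : ℝ
  lam : ℝ
  E : ℝ
  δ : ℝ
  prime : ∀ l, ∀ p ∈ B l, p.Prime
  disj : ∀ l l', l ≠ l' → Disjoint (B l) (B l')
  sumle : ∀ l, ∑ q ∈ B l, (1 : ℝ) / q ≤ Λ
  sumge : ∀ l < I, lam ≤ ∑ q ∈ B l, (1 : ℝ) / q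
  lam_pos : 0 < lam
  hI : 1 ≤ I
  hIm : I ≤ m
  E_nonneg : 0 ≤ E
  card_le : ∀ l, ((B l).card : ℝ) + 1 ≤ Real.exp (E / 2 ^ l)
  lam_inv : 1 + 1 / lam ≤ Real.exp (E / 2 ^ I)
  hP0 : ∀ r ≤ I, ∏ l ∈ Ico r m, P0 (B l) ≤ δ * 2 ^ r

namespace Blk

variable (D : Blk)

/-- the modulus of the model -/
def P : ℕ := ∏ l ∈ range D.m, ∏ q ∈ D.B l, q

/-- evaluation of a local function -/
noncomputable def ev (φ : ℕ → ℕ → ℝ) (n : ℕ) : ℝ := ∏ l ∈ range D.m, φ l (om (D.B l) n)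

/-- mean of a local function -/
noncomputable def mean (φ : ℕ → ℕ → ℝ) : ℝ := ∏ l ∈ range D.m, mB (D.B l) (φ l)

noncomputable def β : ℝ := 1 + 1 / D.lam

def GrG (R b : ℝ) (φ : ℕ → ℕ → ℝ) : Prop := ∀ l w, |φ l w| ≤ (if l < D.I then b else 1) * R ^ w

def Act (φ : ℕ → ℕ → ℝ) : Prop := ∀ l, D.I ≤ l → ∀ w, 1 ≤ w → w ≤ l - D.I + 1 → φ l w = 0

noncomputable def K : ℝ := Real.exp (164 * D.Λ)

noncomputable def abar (l : ℕ) : ℝ :=
  if l < D.I then D.β ^ 4 * Real.exp (81 * D.Λ) else P0 (D.B l) * (1 + D.K / 2 ^ (l - D.I + 1))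

noncomputable def κ : ℝ := (D.β ^ 4 * Real.exp (81 * D.Λ)) ^ D.I * Real.exp D.K * 2 ^ D.I * D.δ

noncomputable def Cbig (k : ℕ) : ℝ :=
  Real.exp (2 * D.Λ) ^ k * 83 ^ k * Real.exp (k * 81 ^ k * D.Λ)

noncomputable def tauTot (A : Finset ℕ) : ℝ := ∑ l ∈ range D.m, ∑ q ∈ D.B l, tau A q

lemma Λ_nonneg : 0 ≤ D.Λ := (sum_nonneg fun _ _ => by positivity).trans (D.sumle 0)

lemma one_le_β : 1 ≤ D.β := by
  have := D.lam_pos
  have : 0 ≤ 1 / D.lam := by positivity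
  unfold β; linarith

lemma K_pos : 0 < D.K := Real.exp_pos _

lemma P0_pos (l : ℕ) : 0 < P0 (D.B l) := H0021.P0_pos (D.prime l)

lemma δ_pos : 0 < D.δ := by
  have := D.hP0 0 (Nat.zero_le _)
  have h2 : 0 < ∏ l ∈ Ico 0 D.m, P0 (D.B l) := prod_pos fun l _ => D.P0_pos l
  simp only [pow_zero, mul_one] at this
  linarith

lemma κ_pos : 0 < D.κ := by
  have := D.δ_pos; have := D.one_le_β
  unfold κ; positivity

lemma P_pos : 0 < D.P := prod_pos fun l _ => prodB_pos (D.prime l)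

lemma dvd_P {l : ℕ} (hl : l < D.m) : ∀ q ∈ D.B l, q ∣ D.P := fun _ hq =>
  (dvd_prod_of_mem _ hq).trans (dvd_prod_of_mem (fun l => ∏ q ∈ D.B l, q) (mem_range.2 hl))

lemma prod_one_add_K_le (r n : ℕ) :
    ∏ l ∈ Ico r n, (1 + D.K / 2 ^ (l - r + 1)) ≤ Real.exp D.K := by
  have hK := D.K_pos
  calc _ ≤ ∏ l ∈ Ico r n, Real.exp (D.K / 2 ^ (l - r + 1)) :=
        prod_le_prod (fun _ _ => by positivity) fun l _ => by
          rw [add_comm]; exact Real.add_one_le_exp _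
    _ = Real.exp (D.K * ∑ i ∈ range (n - r), (1 : ℝ) / 2 ^ (i + 1)) := by
        rw [← Real.exp_sum, sum_Ico_eq_sum_range, mul_sum]
        congr 1
        exact sum_congr rfl fun i _ => by rw [Nat.add_sub_cancel_left, mul_one_div]
    _ ≤ _ := by
        apply Real.exp_le_exp.2
        exact mul_le_of_le_one_right hK.le (sum_half_pow_le _)

lemma prod_sieve_le {r : ℕ} (hr : r ≤ D.I) :
    ∏ l ∈ Ico r D.m, (P0 (D.B l) * (1 + D.K / 2 ^ (l - r + 1))) ≤ Real.exp D.K * 2 ^ r * D.δ := by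
  have hK := D.K_pos
  rw [prod_mul_distrib]
  calc _ ≤ (D.δ * 2 ^ r) * Real.exp D.K := by
        gcongr
        · have := D.δ_pos; positivity
        · exact D.hP0 r hr
        · exact D.prod_one_add_K_le _ _
    _ = _ := by ring

lemma abar_pos (l : ℕ) : 0 < D.abar l := by
  have := D.P0_pos l; have := D.one_le_β; have := D.K_pos
  unfold abar; split_ifs <;> positivity

lemma prod_abar_le : ∏ l ∈ range D.m, D.abar l ≤ D.κ := by
  rw [range_eq_Ico, ← prod_Ico_consecutive _ (Nat.zero_le D.I) D.hIm]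
  have e1 : ∏ l ∈ Ico 0 D.I, D.abar l = (D.β ^ 4 * Real.exp (81 * D.Λ)) ^ D.I := by
    rw [prod_congr rfl (g := fun _ => D.β ^ 4 * Real.exp (81 * D.Λ))]
    · simp
    · intro l hl; simp [abar, (mem_Ico.1 hl).2]
  have e2 : ∏ l ∈ Ico D.I D.m, D.abar l
      = ∏ l ∈ Ico D.I D.m, (P0 (D.B l) * (1 + D.K / 2 ^ (l - D.I + 1))) :=
    prod_congr rfl fun l hl => by simp [abar, not_lt.2 (mem_Ico.1 hl).1]
  have := D.one_le_β
  rw [e1, e2, κ, mul_assoc, mul_assoc, ← mul_assoc (Real.exp D.K)]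
  gcongr
  exact D.prod_sieve_le le_rfl

variable {D}

lemma abs_mB_le_abar {φ : ℕ → ℕ → ℝ} (hG : D.GrG 81 (D.β ^ 4) φ) (hA : D.Act φ) (l : ℕ) :
    |mB (D.B l) (φ l)| ≤ D.abar l := by
  unfold abar
  split_ifs with hl
  · have := abs_mB_le_exp (D.prime l) (R := 81) (c := D.β ^ 4) (by norm_num) (φ := φ l)
      (fun w => by simpa [hl] using hG l w)
    refine this.trans ?_
    have := D.one_le_β
    gcongr
    exact D.sumle l
  · exact sieve_moment (D.prime l) (D.sumle l) (fun w => by simpa [hl] using hG l w)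
      (hA l (not_lt.1 hl))

lemma abs_mean_le {φ : ℕ → ℕ → ℝ} (hG : D.GrG 81 (D.β ^ 4) φ) (hA : D.Act φ) :
    |D.mean φ| ≤ D.κ := by
  refine le_trans ?_ D.prod_abar_le
  rw [mean, abs_prod]
  exact prod_le_prod (fun _ _ => abs_nonneg _) fun l _ => abs_mB_le_abar hG hA l

lemma bt_le_abar (l : ℕ) :
    (if l < D.I then D.β ^ 4 else 1) ≤ Real.exp (2 * D.Λ) * D.abar l := by
  have h1 := D.one_le_β
  have h2 := D.Λ_nonneg
  unfold abar
  split_ifs with hl
  · have a1 : 1 ≤ Real.exp (2 * D.Λ) := Real.one_le_exp (by positivity)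
    have a2 : 1 ≤ Real.exp (81 * D.Λ) := Real.one_le_exp (by positivity)
    have a3 : 0 ≤ D.β ^ 4 := by positivity
    calc D.β ^ 4 = 1 * (D.β ^ 4 * 1) := by ring
      _ ≤ _ := by gcongr
  · have a1 := exp_le_P0 (D.prime l)
    have a2 : Real.exp (-(2 * D.Λ)) ≤ P0 (D.B l) := by
      refine le_trans (Real.exp_le_exp.2 ?_) a1
      have := D.sumle l; linarith
    have a3 : (1 : ℝ) ≤ 1 + D.K / 2 ^ (l - D.I + 1) := by
      have := D.K_pos
      have : 0 ≤ D.K / 2 ^ (l - D.I + 1) := by positivity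
      linarith
    have a4 := D.P0_pos l
    calc (1 : ℝ) = Real.exp (2 * D.Λ) * (Real.exp (-(2 * D.Λ)) * 1) := by
          rw [mul_one, ← Real.exp_add]; simp
      _ ≤ _ := by gcongr

theorem ni_global (A : Finset ℕ) {k : ℕ} (hk : A.card ≤ k) (φ : ℕ → ℕ → ℕ → ℝ)
    (hG : ∀ j ∈ A, D.GrG 81 (D.β ^ 4) (φ j)) (hA : ∀ j ∈ A, D.Act (φ j)) :
    |avg D.P (fun n => ∏ j ∈ A, D.ev (φ j) (n + j)) - ∏ j ∈ A, D.mean (φ j)|
      ≤ D.κ ^ A.card * (Real.exp (D.Cbig k * D.tauTot A) - 1) := by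
  have e1 : avg D.P (fun n => ∏ j ∈ A, D.ev (φ j) (n + j))
      = ∏ l ∈ range D.m, avg (∏ q ∈ D.B l, q) (fun n => ∏ j ∈ A, φ j l (om (D.B l) (n + j))) := by
    rw [← avg_prod_coprime]
    · exact avg_congr fun n => prod_comm
    · exact fun l _ => prodB_pos (D.prime l)
    · intro l _ l' _ hne
      refine Nat.Coprime.prod_left fun q hq => Nat.Coprime.prod_right fun q' hq' => ?_
      refine (Nat.coprime_primes (D.prime l q hq) (D.prime l' q' hq')).2 ?_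
      rintro rfl
      exact disjoint_left.1 (D.disj l l' hne) hq hq'
    · intro l _ n n' h
      simp only [fun j => om_modEq (h.add_right j)]
  have e2 : ∏ j ∈ A, D.mean (φ j) = ∏ l ∈ range D.m, ∏ j ∈ A, mB (D.B l) (φ j l) := prod_comm
  have hΛ := D.Λ_nonneg
  have hC : 0 ≤ D.Cbig k := by unfold Cbig; positivity
  have ht : ∀ l, 0 ≤ ∑ q ∈ D.B l, tau A q := fun l => sum_nonneg fun _ _ => tau_nonneg _ _
  rw [e1, e2]
  refine (abs_prod_sub_prod_le _ _ _ (fun l => D.abar l ^ A.card)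
    (fun l => D.Cbig k * ∑ q ∈ D.B l, tau A q) (fun l _ => mul_nonneg hC (ht l)) ?_ ?_).trans ?_
  · intro l _
    refine (block_ni A (R := 81) (by norm_num) (D.B l) (D.prime l) (fun j => φ j l)
      (fun _ => if l < D.I then D.β ^ 4 else 1) (fun j hj w => hG j hj l w)).trans ?_
    rw [prod_const]
    have a0 : 0 ≤ (if l < D.I then D.β ^ 4 else 1) := by
      have := D.one_le_β; split_ifs <;> positivity
    have a1 := D.abar_pos l
    have a2 : 1 ≤ Real.exp (2 * D.Λ) := Real.one_le_exp (by positivity)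
    have a3 := ht l
    have a4 : 0 ≤ ∑ q ∈ D.B l, (1 : ℝ) / q := sum_nonneg fun _ _ => by positivity
    calc _ ≤ (Real.exp (2 * D.Λ) * D.abar l) ^ A.card * ((83 : ℝ) ^ k * (∑ q ∈ D.B l, tau A q)
          * Real.exp (k * 81 ^ k * D.Λ)) := by
          rw [show (81 : ℝ) + 2 = 83 by norm_num]
          gcongr
          · exact bt_le_abar l
          · norm_num
          · norm_num
          · exact D.sumle l
      _ ≤ (Real.exp (2 * D.Λ) ^ k * D.abar l ^ A.card) * ((83 : ℝ) ^ k * (∑ q ∈ D.B l, tau A q)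
          * Real.exp (k * 81 ^ k * D.Λ)) := by
          rw [mul_pow]; gcongr
      _ = _ := by unfold Cbig; ring
  · intro l _
    rw [abs_prod, ← prod_const]
    exact prod_le_prod (fun _ _ => abs_nonneg _) fun j hj => abs_mB_le_abar (hG j hj) (hA j hj) l
  · rw [prod_pow, ← mul_sum, ← tauTot]
    have : 1 ≤ Real.exp (D.Cbig k * D.tauTot A) :=
      Real.one_le_exp (mul_nonneg hC (sum_nonneg fun l _ => ht l))
    gcongr
    · exact prod_nonneg fun l _ => (D.abar_pos l).le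
    · exact D.prod_abar_le

lemma ev_one (n : ℕ) : D.ev 1 n = 1 := by simp [ev]

lemma mean_one : D.mean 1 = 1 := by
  unfold mean
  exact prod_eq_one fun l _ => mB_const (D.prime l) 1

/-- normalised sum over a class modulo `W` -/
noncomputable def _root_.Crest.Agent.H0021.EE (W b X : ℕ) (F : ℕ → ℝ) : ℝ :=
  (W : ℝ) / X * ∑ n ∈ range X, ind W b n * F n

theorem star {ι : Type*} [Fintype ι] [DecidableEq ι] (sh : ι → ℕ) (hsh : Function.Injective sh)
    {k : ℕ} {Y η₁ η₂ : ℝ} (hY : 1 ≤ Y) {W X : ℕ} (b : ℕ) (hW : 0 < W) (hX : 0 < X)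
    (hc : Nat.Coprime W D.P)
    (h1 : ∀ A ⊆ univ.image sh, A.card ≤ k → Real.exp (D.Cbig k * D.tauTot A) - 1 ≤ η₁)
    (h2 : ∀ a ≤ k, (W : ℝ) / X * Y ^ k ≤ η₂ * D.κ ^ a)
    (φ : ι → ℕ → ℕ → ℝ) (ℓ : ι → ℕ) (hG : ∀ i, D.GrG 81 (D.β ^ 4) (φ i))
    (h0 : ∀ i, ℓ i = 0 → φ i = 1) (hA : ∀ i, ℓ i ≠ 0 → D.Act (φ i))
    (hL : ∀ i j, Rep D.P (fun n => D.ev (φ i) (n + j)) (Y ^ ℓ i)) (hsum : ∑ i, ℓ i ≤ k) :
    |EE W b X (fun n => ∏ i, D.ev (φ i) (n + sh i)) - ∏ i, D.mean (φ i)|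
      ≤ (η₁ + η₂) * ∏ i, (if ℓ i = 0 then 1 else D.κ) := by
  set S := univ.filter (fun i => ℓ i ≠ 0) with hS
  have hSk : S.card ≤ k := by
    calc S.card = ∑ i ∈ S, 1 := by simp
      _ ≤ ∑ i ∈ S, ℓ i := sum_le_sum fun i hi => Nat.one_le_iff_ne_zero.2 (mem_filter.1 hi).2
      _ ≤ ∑ i, ℓ i := sum_le_sum_of_subset (filter_subset _ _)
      _ ≤ k := hsum
  have hcard : (S.image sh).card = S.card := card_image_of_injective _ hsh
  have e0 : ∏ i, (if ℓ i = 0 then 1 else D.κ) = D.κ ^ S.card := by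
    rw [prod_ite]; simp [hS]
  have key : ∀ f : (ℕ → ℕ → ℝ) → ℕ → ℝ, (∀ j, f 1 j = 1) → ∏ i, f (φ i) (sh i)
      = ∏ j ∈ S.image sh, f (Function.extend sh φ 1 j) j := by
    intro f hf
    rw [prod_image fun _ _ _ _ h => hsh h]
    simp only [hsh.extend_apply]
    symm
    refine prod_subset (filter_subset _ _) fun i _ hi => ?_
    rw [h0 i (by simpa [hS] using hi), hf]
  have n1 := ni_global (D := D) (S.image sh) (k := k) (hcard ▸ hSk) (Function.extend sh φ 1)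
    (by intro j hj; obtain ⟨i, _, rfl⟩ := mem_image.1 hj; rw [hsh.extend_apply]; exact hG i)
    (by
      intro j hj; obtain ⟨i, hi, rfl⟩ := mem_image.1 hj; rw [hsh.extend_apply]
      exact hA i (mem_filter.1 hi).2)
  rw [← key (fun φ _ => D.mean φ) (fun _ => mean_one), hcard,
    ← avg_congr (fun n => key (fun φ j => D.ev φ (n + j)) (fun _ => ev_one _))] at n1
  have r1 := (Rep.prod D.P_pos univ (fun i _ => hL i (sh i))).transfer D.P_pos hW hc b X
  rw [prod_pow_eq_pow_sum] at r1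
  have hX' : (0 : ℝ) < X := by positivity
  have hW' : (0 : ℝ) < W := by positivity
  have r2 : |EE W b X (fun n => ∏ i, D.ev (φ i) (n + sh i))
      - avg D.P (fun n => ∏ i, D.ev (φ i) (n + sh i))| ≤ η₂ * D.κ ^ S.card := by
    refine le_trans ?_ (h2 _ hSk)
    have : EE W b X (fun n => ∏ i, D.ev (φ i) (n + sh i))
        - avg D.P (fun n => ∏ i, D.ev (φ i) (n + sh i))
        = (W : ℝ) / X * (∑ n ∈ range X, ind W b n * ∏ i, D.ev (φ i) (n + sh i)
          - X / W * avg D.P (fun n => ∏ i, D.ev (φ i) (n + sh i))) := by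
      unfold EE; field_simp
    rw [this, abs_mul, abs_of_nonneg (by positivity)]
    gcongr
    exact r1.trans (pow_le_pow_right₀ hY hsum)
  have hκ := D.κ_pos
  have n2 := h1 (S.image sh) (image_subset_image (filter_subset _ _)) (hcard ▸ hSk)
  rw [e0]
  refine (abs_sub_le _ _ _).trans ((add_le_add r2 n1).trans ?_)
  calc _ ≤ η₂ * D.κ ^ S.card + D.κ ^ S.card * η₁ := by gcongr
    _ = _ := by ring

end Blk

end Crest.Agent.H0021
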