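import Crest.Agent.H0021.Conf

/-! Heavy configurations carry little mass; reduction at a rough position. -/

open Finset

set_option linter.unusedSectionVars false

namespace Crest.Agent.H0021

namespace Blk

variable {ι : Type*} [Fintype ι] [DecidableEq ι] (D : Blk)

noncomputable def Dall (U : Finset ι) : ℝ := ∑ σ ∈ D.Conf U, ∏ j, D.dd (σ j)

noncomputable def tail (U : Finset ι) : ℝ :=
  ∑ σ ∈ D.Conf U, if 2 ^ (D.I - 1) < D.wts σ then ∏ j, D.dd (σ j) else 0

noncomputable def cβ (σ : ι → ℕ) : ℝ :=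
  ∑ a ∈ range (D.I + 1), if D.wts σ + D.wt a ≤ 2 ^ D.I then (if a = 0 then 1 else -1 / D.I) else 0

variable {D}

lemma prod_dd_nonneg (σ : ι → ℕ) : 0 ≤ ∏ j, D.dd (σ j) := prod_nonneg fun _ _ => dd_nonneg _

lemma markov (U : Finset ι) :
    ∑ σ ∈ D.Conf U, (D.wts σ : ℝ) * ∏ j, D.dd (σ j)
      ≤ U.card * (∑ a ∈ range (D.I + 1), (D.wt a : ℝ) * D.dd a) * D.Dall U := by
  set ω := ∑ a ∈ range (D.I + 1), (D.wt a : ℝ) * D.dd a with hω
  have hω0 : 0 ≤ ω := sum_nonneg fun a _ => mul_nonneg (by positivity) (dd_nonneg a)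
  have key : ∀ i, ∑ σ ∈ D.Conf U, (D.wt (σ i) : ℝ) * ∏ j, D.dd (σ j)
      ≤ (if i ∈ U then ω else 0) * D.Dall U := by
    intro i
    have e1 : ∀ σ : ι → ℕ, (D.wt (σ i) : ℝ) * ∏ j, D.dd (σ j)
        = ∏ j, ((if j = i then (D.wt (σ j) : ℝ) else 1) * D.dd (σ j)) := by
      intro σ; rw [prod_mul_distrib]; simp
    have e2 : (if i ∈ U then ω else 0) * D.Dall U
        = ∏ j, ((if j = i then (if i ∈ U then ω else 0) else 1) * ∑ a ∈ D.lab U j, D.dd a) := by
      rw [prod_mul_distrib, prod_univ_sum]; simp [Dall, Conf]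
    simp only [e1]
    rw [e2, Conf, ← prod_univ_sum (D.lab U)
      (fun j a => (if j = i then (D.wt a : ℝ) else 1) * D.dd a)]
    refine prod_le_prod (fun j _ => sum_nonneg fun a _ => mul_nonneg ?_ (dd_nonneg a)) fun j _ => ?_
    · split_ifs <;> positivity
    · by_cases hj : j = i
      · subst hj
        simp only [if_true, lab]
        split_ifs
        · refine le_mul_of_one_le_right hω0 ?_
          rw [sum_range_succ', dd_zero]
          have : 0 ≤ ∑ a ∈ range D.I, D.dd (a + 1) := sum_nonneg fun _ _ => dd_nonneg _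
          linarith
        · simp [wt]
      · simp [hj]
  simp only [wts, Nat.cast_sum, sum_mul]
  rw [sum_comm]
  refine (sum_le_sum fun i _ => key i).trans (le_of_eq ?_)
  rw [← sum_mul]
  simp [sum_ite_mem]

lemma Dall_nonneg (U : Finset ι) : 0 ≤ D.Dall U := sum_nonneg fun _ _ => prod_dd_nonneg _

lemma two_pow_I : (2 : ℕ) ^ D.I = 2 ^ (D.I - 1) + 2 ^ (D.I - 1) := by
  have := D.hI
  rw [← two_mul, ← pow_succ']; congr 1; omega

lemma tail_le (U : Finset ι) {N : ℝ} (hN : (U.card : ℝ) ≤ N) :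
    D.tail U ≤ 2 * (N * D.δ * (Real.exp D.K / (D.lam * D.I))) * D.Dall U := by
  have h1 : (2 : ℝ) ^ (D.I - 1) * D.tail U ≤ ∑ σ ∈ D.Conf U, (D.wts σ : ℝ) * ∏ j, D.dd (σ j) := by
    rw [tail, mul_sum]
    refine sum_le_sum fun σ _ => ?_
    have := prod_dd_nonneg (D := D) σ
    split_ifs with h
    · gcongr; exact_mod_cast h.le
    · rw [mul_zero]; positivity
  have h2 := Dall_nonneg (D := D) U
  have h3 : (2 : ℝ) ^ D.I = 2 ^ (D.I - 1) + 2 ^ (D.I - 1) := by exact_mod_cast two_pow_I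
  have h4 := (h1.trans (markov U)).trans
    (mul_le_mul_of_nonneg_right (mul_le_mul hN sum_wt_dd_le
      (sum_nonneg fun a _ => mul_nonneg (by positivity) (dd_nonneg a))
      ((Nat.cast_nonneg _).trans hN)) h2)
  rw [h3] at h4
  refine le_of_mul_le_mul_left (h4.trans (le_of_eq ?_)) (by positivity : (0 : ℝ) < 2 ^ (D.I - 1))
  ring

lemma Dall_le (U : Finset ι) : D.Dall U ≤ D.DD U D.c1 + D.tail U := by
  rw [Dall, DD, tail, ← sum_add_distrib]
  refine sum_le_sum fun σ _ => ?_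
  have := prod_dd_nonneg (D := D) σ
  have h2 := two_pow_I (D := D)
  unfold c1
  split_ifs with h h'
  · linarith
  · linarith
  · linarith
  · omega

lemma one_le_DD (U : Finset ι) : 1 ≤ D.DD U D.c1 := by
  have : (0 : ι → ℕ) ∈ D.Conf U := mem_Conf.2 ⟨fun _ => Nat.zero_le _, fun _ _ => rfl⟩
  refine le_trans ?_ (single_le_sum (f := fun σ => D.c1 σ ^ 2 * ∏ j, D.dd (σ j))
    (fun σ _ => mul_nonneg (sq_nonneg _) (prod_dd_nonneg _)) this)
  simp [c1_zero, dd_zero]

lemma cβ_eq (σ : ι → ℕ) : D.cβ σ = (if D.wts σ ≤ 2 ^ D.I then 1 else 0)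
    - (((range D.I).filter fun r => D.wts σ + D.wt (r + 1) ≤ 2 ^ D.I).card : ℝ) / D.I := by
  rw [cβ, sum_range_succ']
  simp only [Nat.add_eq_zero_iff, one_ne_zero, and_false, if_false, if_true, wt, add_zero]
  rw [← sum_filter, sum_const, nsmul_eq_mul]; ring

lemma adm_cβ : D.Adm (D.cβ : (ι → ℕ) → ℝ) := by
  intro σ
  have hI : (0 : ℝ) < D.I := by exact_mod_cast D.hI
  have h0 : 2 ^ D.I < D.wts σ → D.cβ σ = 0 := fun h =>
    sum_eq_zero fun a _ => if_neg (by omega)
  refine ⟨?_, h0⟩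
  by_cases h : 2 ^ D.I < D.wts σ
  · simp [h0 h]
  · rw [cβ_eq, if_pos (not_lt.1 h)]
    have h1 : (((range D.I).filter fun r => D.wts σ + D.wt (r + 1) ≤ 2 ^ D.I).card : ℝ) / D.I
        ≤ 1 := by
      rw [div_le_one hI]
      exact_mod_cast (card_filter_le _ _).trans (card_range _).le
    have h2 : 0 ≤ (((range D.I).filter fun r => D.wts σ + D.wt (r + 1) ≤ 2 ^ D.I).card : ℝ) / D.I := by
      positivity
    rw [abs_le]; constructor <;> linarith

lemma cβ_eq_zero {σ : ι → ℕ} (h : D.wts σ ≤ 2 ^ (D.I - 1)) : D.cβ σ = 0 := by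
  have hI : (0 : ℝ) < D.I := by exact_mod_cast D.hI
  have h2 := two_pow_I (D := D)
  rw [cβ_eq, if_pos (by omega), filter_true_of_mem, card_range, div_self hI.ne', sub_self]
  intro r _
  have := wt_le (D := D) (a := r + 1)
  omega

lemma DD_cβ_le {U V : Finset ι} (h : V ⊆ U) : D.DD V D.cβ ≤ D.tail U := by
  refine le_trans (sum_le_sum fun σ _ => ?_) (sum_le_sum_of_subset_of_nonneg (Conf_mono h) ?_)
  · split_ifs with h'
    · refine mul_le_of_le_one_left (prod_dd_nonneg _) ?_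
      rw [sq_le_one_iff_abs_le_one]; exact (adm_cβ σ).1
    · simp [cβ_eq_zero (not_lt.1 h')]
  · intro σ _ _
    split_ifs
    · exact prod_dd_nonneg _
    · exact le_rfl

lemma sum_Conf_erase {U : Finset ι} {j : ι} (hj : j ∈ U) (F : (ι → ℕ) → ℝ) :
    ∑ σ ∈ D.Conf U, F σ
      = ∑ σ ∈ D.Conf (U.erase j), ∑ a ∈ range (D.I + 1), F (Function.update σ j a) := by
  rw [← sum_product']
  refine sum_bij' (fun σ _ => (Function.update σ j 0, σ j))
    (fun x _ => Function.update x.1 j x.2) ?_ ?_ ?_ ?_ ?_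
  · intro σ hσ
    obtain ⟨h1, h2⟩ := mem_Conf.1 hσ
    refine mem_product.2 ⟨mem_Conf.2 ⟨fun i => ?_, fun i hi => ?_⟩, mem_range.2 (Nat.lt_succ_of_le (h1 j))⟩
    · by_cases h : i = j
      · subst h; simp
      · simpa [h] using h1 i
    · by_cases h : i = j
      · subst h; simp
      · simpa [h] using h2 i (by simpa [h] using hi)
  · intro x hx
    obtain ⟨hx1, hx2⟩ := mem_product.1 hx
    obtain ⟨h1, h2⟩ := mem_Conf.1 hx1
    refine mem_Conf.2 ⟨fun i => ?_, fun i hi => ?_⟩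
    · by_cases h : i = j
      · subst h; simpa [Nat.lt_succ_iff] using hx2
      · simpa [h] using h1 i
    · have h : i ≠ j := by rintro rfl; exact hi hj
      simpa [h] using h2 i (by simp [hi])
  · intro σ _; simp
  · intro x hx
    have := (mem_Conf.1 (mem_product.1 hx).1).2 j (by simp)
    ext i
    · by_cases h : i = j
      · subst h; simp [this]
      · simp [h]
    · simp
  · intro σ _; simp

lemma Qf_rough {sh : ι → ℕ} {U : Finset ι} {j : ι} (hj : j ∈ U) {n : ℕ}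
    (hn : D.Rough (n + sh j)) : D.Qf sh U D.c1 n = D.Qf sh (U.erase j) D.cβ n := by
  rw [Qf, sum_Conf_erase hj, Qf]
  refine sum_congr rfl fun σ hσ => ?_
  have h0 := (mem_Conf.1 hσ).2 j (by simp)
  rw [cβ, sum_mul]
  refine sum_congr rfl fun a ha => ?_
  have e1 : D.wts (Function.update σ j a) = D.wts σ + D.wt a := by
    unfold wts
    rw [← add_sum_erase _ _ (mem_univ j), ← add_sum_erase _ _ (mem_univ j), h0,
      sum_congr rfl (g := fun i => D.wt (σ i)) fun i hi => by simp [(mem_erase.1 hi).1]]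
    simp [wt, add_comm]
  have e2 : D.G sh (Function.update σ j a) n = D.ev (D.gam a) (n + sh j) * D.G sh σ n := by
    unfold G
    rw [← mul_prod_erase _ _ (mem_univ j), ← mul_prod_erase _ _ (mem_univ j), h0,
      prod_congr rfl (g := fun i => D.ev (D.gam (σ i)) (n + sh i))
        fun i hi => by simp [(mem_erase.1 hi).1]]
    simp [ev_gam_zero]
  have e3 : D.ev (D.gam a) (n + sh j) = if a = 0 then 1 else (-1 : ℝ) / D.I := by
    rcases a with _ | r
    · simp [ev_gam_zero]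
    · simpa using ev_gam_rough hn (by simpa using ha)
  rw [e2, e3, c1, e1]
  split_ifs <;> simp

end Blk

end Crest.Agent.H0021
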